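import Vale.Agent.P336.Core

/-!
CNT: reverse decoding. Induction on `j`. Write `Z = ∑ a ∈ W, (ρ/2)^|a|`.
`j = 0`: the sum is `Z ≤ 2 Z`. Step: the sum is `Z + T` with
`T = ∑ a ∈ W, ∑ τ ∈ steps C w y a, ρ^|a| * gw C w j y (a \ supp τ)`; show `T ≤ S_j / 2`.
For `a'` let `D a' = {τ ∈ C | First C y a' τ}`; it has at most one element (`first_unique`).
The map `(a, τ) ↦ (a \ supp τ, τ, a ∩ supp τ)` is injective from the index set of `T` into
`{(a', τ, b) | a' ∈ W, τ ∈ D a', b ⊆ supp τ, w < |b|}` and `|a| = |a'| + |b|`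
(`card_sdiff_add_card_inter`); use `sum_sigma'` or `sum_product'` and `sum_le_sum_of_injOn`
style arguments (`sum_image`, `sum_le_sum_of_subset_of_nonneg`), all terms are nonnegative.
For fixed `τ ∈ C`: `∑_{b ⊆ supp τ, w < |b|} ρ^|b| ≤ 2^(-w-1) ∑_{b ⊆ supp τ} (2ρ)^|b|
= 2^(-w-1) (1 + 2ρ)^|supp τ| ≤ 1/2` (`wide_sum_le`; `Finset.prod_one_add` or `sum_pow_of_commute`,
`Finset.sum_powerset`).
-/

namespace Vale.Agent.P336

open Finset

variable {X : Type} [Fintype X] [DecidableEq X]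

theorem first_unique {C : Finset (Term X)} {y : X → Bool} {a : Finset X} {τ τ' : Term X}
    (h : τ ∈ C) (h' : τ' ∈ C) (hf : First C y a τ) (hf' : First C y a τ') : τ = τ' := by
  rcases lt_trichotomy (rk τ) (rk τ') with hl | hl | hl
  · exact absurd hf.1 (hf'.2.2 τ h hl hf.2.1)
  · exact rk_inj hl
  · exact absurd hf'.1 (hf.2.2 τ' h' hl hf'.2.1)

theorem wide_sum_le (S : Finset X) {w k : ℕ} {ρ : ℝ} (hρ : 0 ≤ ρ) (hS : S.card ≤ k)
    (hpow : (1 + 2 * ρ) ^ k ≤ 2 ^ w) :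
    ∑ b ∈ S.powerset with w < b.card, ρ ^ b.card ≤ 1 / 2 := by
  have h1 : ∑ b ∈ S.powerset, (2 * ρ) ^ b.card = (1 + 2 * ρ) ^ S.card := by
    rw [← prod_const, prod_one_add]
    simp only [prod_const]
  have h2 : 2 ^ (w + 1) * ∑ b ∈ S.powerset with w < b.card, ρ ^ b.card ≤ 2 ^ w := by
    refine le_trans ?_ ((pow_le_pow_right₀ (by linarith) hS).trans hpow)
    rw [← h1, mul_sum]
    refine (sum_le_sum fun b hb => ?_).trans
      (sum_le_sum_of_subset_of_nonneg (filter_subset _ _) fun _ _ _ => by positivity)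
    rw [mul_pow]
    exact mul_le_mul_of_nonneg_right (pow_le_pow_right₀ one_le_two (mem_filter.1 hb).2)
      (by positivity)
  rw [pow_succ, mul_assoc, mul_le_iff_le_one_right (by positivity)] at h2
  linarith

theorem cnt_bound (C : Finset (Term X)) {w k : ℕ} (W : Finset (Finset X))
    (hW : ∀ a ∈ W, ∀ b, b ⊆ a → b ∈ W) (hk : ∀ τ ∈ C, (supp τ).card ≤ k) {ρ : ℝ} (hρ : 0 ≤ ρ)
    (hpow : (1 + 2 * ρ) ^ k ≤ 2 ^ w) (y : X → Bool) (j : ℕ) :
    ∑ a ∈ W, ρ ^ a.card * gw C w j y a ≤ 2 * ∑ a ∈ W, (ρ / 2) ^ a.card := by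
  have hZ : ∑ a ∈ W, ρ ^ a.card * (1 / 2) ^ a.card = ∑ a ∈ W, (ρ / 2) ^ a.card :=
    sum_congr rfl fun a _ => by rw [← mul_pow, mul_one_div]
  have hZ0 : 0 ≤ ∑ a ∈ W, (ρ / 2) ^ a.card := sum_nonneg fun _ _ => by positivity
  induction j with
  | zero =>
    simp only [gw]
    linarith
  | succ j ih =>
    simp only [gw, mul_add, sum_add_distrib, mul_sum]
    rw [hZ, sum_sigma', ← sum_fiberwise_of_maps_to (t := W) (g := fun p => p.1 \ supp p.2)
      fun p hp => hW _ (mem_sigma.1 hp).1 _ sdiff_subset, ← mul_sum]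
    refine le_trans (add_le_add_right (sum_le_sum (g := fun a => ρ ^ a.card * gw C w j y a * (1 / 2))
      fun a _ => ?_) _) (by rw [← sum_mul]; linarith)
    have h0 : 0 ≤ ρ ^ a.card * gw C w j y a := mul_nonneg (by positivity) (gw_nonneg C w j y a)
    rcases ((W.sigma (steps C w y)).filter fun p => p.1 \ supp p.2 = a).eq_empty_or_nonempty with
      h | ⟨q, hq⟩
    · rw [h, sum_empty]
      positivity
    have key : ∀ p ∈ (W.sigma (steps C w y)).filter fun p => p.1 \ supp p.2 = a,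
        p.2 ∈ C ∧ w < (p.1 ∩ supp p.2).card ∧ First C y a p.2 ∧ p.1 \ supp p.2 = a := fun p hp => by
      obtain ⟨h1, h2⟩ := mem_filter.1 hp
      obtain ⟨h3, h4, h5⟩ := mem_steps.1 (mem_sigma.1 h1).2
      exact ⟨h3, h4, h2 ▸ h5, h2⟩
    have hτ : ∀ p ∈ (W.sigma (steps C w y)).filter fun p => p.1 \ supp p.2 = a, p.2 = q.2 :=
      fun p hp => first_unique (key p hp).1 (key q hq).1 (key p hp).2.2.1 (key q hq).2.2.1
    refine le_trans ?_ (mul_le_mul_of_nonneg_left (wide_sum_le (supp q.2) hρ (hk _ (key q hq).1)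
      hpow) h0)
    rw [sum_congr rfl (g := fun p => ρ ^ a.card * gw C w j y a * ρ ^ (p.1 ∩ supp q.2).card)
      fun p hp => by
        rw [← card_sdiff_add_card_inter p.1 (supp p.2), (key p hp).2.2.2, hτ p hp, pow_add,
          mul_right_comm], ← mul_sum, ← sum_image (g := fun p : (_ : Finset X) × Term X =>
        p.1 ∩ supp q.2) (f := fun b => ρ ^ b.card) fun p hp p' hp' e => ?_]
    · refine mul_le_mul_of_nonneg_left (sum_le_sum_of_subset_of_nonneg (fun b hb => ?_)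
        fun _ _ _ => by positivity) h0
      obtain ⟨p, hp, rfl⟩ := mem_image.1 hb
      exact mem_filter.2 ⟨mem_powerset.2 inter_subset_right, hτ p hp ▸ (key p hp).2.1⟩
    · refine Sigma.ext ?_ (heq_of_eq ((hτ p hp).trans (hτ p' hp').symm))
      rw [← sdiff_union_inter p.1 (supp p.2), ← sdiff_union_inter p'.1 (supp p'.2),
        (key p hp).2.2.2, (key p' hp').2.2.2, hτ p hp, hτ p' hp']
      exact congrArg _ e

end Vale.Agent.P336
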