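import Vale.Agent.P336.Mom1

/-!
Moments, part 3. `moment`: `(∑_{x ∈ Q} f x)^(2h) = ∑_{v ∈ piFinset (fun _ => Q)} ∏_j f (v j)`
(`Finset.sum_pow'` or `Finset.prod_univ_sum`), swap the sums; a tuple that is not good contributes
`0` (`mom_vanish`), a good tuple at most `card (G × V → Bool)` (`abs_Fs`); `card_good`.
`markov`: on the set `T` every term of the moment sum is at least
`((3/2)^|a| h^|G| Λ)^(2h) ≥ (2^|a|)^h (h^(2h))^|G| Λ^(2h)` (`(3/2)^2 ≥ 2`, `Even.pow_abs`), the other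
terms are nonnegative; cancel the positive factor.
-/

namespace Vale.Agent.P336

open Finset

variable {X G V : Type} [Fintype X] [DecidableEq X] [Fintype G] [DecidableEq G] [Fintype V]
  [DecidableEq V]

theorem moment (grp : X → G) (ch : G → (X → Bool) → V) (y : X → Bool) (a : Finset X)
    (hsep : ∀ x ∈ fib y a, ∀ x' ∈ fib y a, ∀ i, ch i x = ch i x' → ∀ z, grp z = i → x z = x' z)
    (h : ℕ) {Q : Finset (X → Bool)} (hQ : Q ⊆ fib y a) :
    ∑ s : G × V → Bool, (∑ x ∈ Q, Fs ch s x) ^ (2 * h) ≤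
      (Fintype.card (G × V → Bool) : ℝ) *
        (((2 : ℝ) ^ a.card) ^ h * ((h : ℝ) ^ (2 * h)) ^ Fintype.card G) := by
  classical
  have e : ∀ s : G × V → Bool, (∑ x ∈ Q, Fs ch s x) ^ (2 * h) =
      ∑ v ∈ Fintype.piFinset (fun _ : Fin (2 * h) => Q), ∏ j, Fs ch s (v j) := fun s =>
    Finset.sum_pow' Q _ (2 * h)
  simp_rw [e]
  rw [Finset.sum_comm]
  obtain ⟨T, hTd⟩ : ∃ T : Finset (Fin (2 * h) → X → Bool),
      T = (Fintype.piFinset (fun _ : Fin (2 * h) => Q)).filter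
        (fun v => ∀ i j, ∃ j', j' ≠ j ∧ ch i (v j') = ch i (v j)) := ⟨_, rfl⟩
  have h1 : ∑ v ∈ Fintype.piFinset (fun _ : Fin (2 * h) => Q),
      ∑ s : G × V → Bool, ∏ j, Fs ch s (v j) =
      ∑ v ∈ T, ∑ s : G × V → Bool, ∏ j, Fs ch s (v j) := by
    rw [hTd]
    symm
    apply Finset.sum_filter_of_ne
    intro v _ hne i j
    by_contra hng
    apply hne
    exact mom_vanish ch v i j fun j' hj' => by_contra fun hn => hng ⟨j', hn, hj'⟩
  have h2 : ∀ v ∈ T, ∑ s : G × V → Bool, ∏ j, Fs ch s (v j) ≤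
      (Fintype.card (G × V → Bool) : ℝ) := by
    intro v _
    have h3 : ∀ s ∈ (univ : Finset (G × V → Bool)), ∏ j, Fs ch s (v j) ≤ (1 : ℝ) := by
      intro s _
      refine (le_abs_self _).trans ?_
      rw [abs_prod]
      simp [abs_Fs]
    have h4 := Finset.sum_le_card_nsmul _ _ _ h3
    rwa [nsmul_eq_mul, mul_one, card_univ] at h4
  have h5 := Finset.sum_le_card_nsmul _ _ _ h2
  have h6 : T.card ≤ (2 ^ a.card) ^ h * (h ^ (2 * h)) ^ Fintype.card G := by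
    refine card_good grp ch y a hsep h T fun v hv => ?_
    rw [hTd, mem_filter, Fintype.mem_piFinset] at hv
    exact ⟨fun j => hQ (hv.1 j), hv.2⟩
  have h7 : (T.card : ℝ) ≤ ((2 : ℝ) ^ a.card) ^ h * ((h : ℝ) ^ (2 * h)) ^ Fintype.card G := by
    exact_mod_cast h6
  rw [h1]
  refine h5.trans ?_
  rw [nsmul_eq_mul, mul_comm]
  exact mul_le_mul_of_nonneg_left h7 (Nat.cast_nonneg _)

theorem markov (grp : X → G) (ch : G → (X → Bool) → V) (y : X → Bool) (a : Finset X)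
    (hsep : ∀ x ∈ fib y a, ∀ x' ∈ fib y a, ∀ i, ch i x = ch i x' → ∀ z, grp z = i → x z = x' z)
    {h : ℕ} (hh : 1 ≤ h) {Q : Finset (X → Bool)} (hQ : Q ⊆ fib y a) {Λ : ℝ} (hΛ : 0 < Λ)
    (T : Finset (G × V → Bool))
    (hT : ∀ s ∈ T, (3 / 2) ^ a.card * (h : ℝ) ^ Fintype.card G * Λ < |∑ x ∈ Q, Fs ch s x|) :
    (T.card : ℝ) * Λ ^ (2 * h) ≤ Fintype.card (G × V → Bool) := by
  have hm := moment grp ch y a hsep h hQ
  have hh0 : (0 : ℝ) < h := by exact_mod_cast hh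
  obtain ⟨B, hB⟩ : ∃ B : ℝ,
      B = ((2 : ℝ) ^ a.card) ^ h * ((h : ℝ) ^ (2 * h)) ^ Fintype.card G := ⟨_, rfl⟩
  have hB0 : 0 < B := by rw [hB]; positivity
  have hev : Even (2 * h) := even_two_mul h
  have h1 : ∀ s ∈ T, B * Λ ^ (2 * h) ≤ (∑ x ∈ Q, Fs ch s x) ^ (2 * h) := by
    intro s hs
    rw [← hev.pow_abs (∑ x ∈ Q, Fs ch s x)]
    refine le_trans ?_ (pow_le_pow_left₀ (by positivity) (hT s hs).le (2 * h))
    rw [mul_pow, mul_pow, hB]
    refine mul_le_mul_of_nonneg_right ?_ (by positivity)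
    have e1 : ((h : ℝ) ^ Fintype.card G) ^ (2 * h) = ((h : ℝ) ^ (2 * h)) ^ Fintype.card G := by
      rw [← pow_mul, ← pow_mul, mul_comm]
    have e2 : (((3 : ℝ) / 2) ^ a.card) ^ (2 * h) = ((((3 : ℝ) / 2) ^ 2) ^ a.card) ^ h := by
      rw [← pow_mul, ← pow_mul, ← pow_mul]
      congr 1
      ring
    rw [e1, e2]
    refine mul_le_mul_of_nonneg_right ?_ (by positivity)
    refine pow_le_pow_left₀ (by positivity) ?_ h
    exact pow_le_pow_left₀ (by norm_num) (by norm_num) _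
  have h2 := Finset.card_nsmul_le_sum _ _ _ h1
  have h3 : ∑ s ∈ T, (∑ x ∈ Q, Fs ch s x) ^ (2 * h) ≤
      ∑ s : G × V → Bool, (∑ x ∈ Q, Fs ch s x) ^ (2 * h) :=
    Finset.sum_le_sum_of_subset_of_nonneg (subset_univ _) fun s _ _ => hev.pow_nonneg _
  rw [← hB] at hm
  rw [nsmul_eq_mul] at h2
  have h4 : (T.card : ℝ) * Λ ^ (2 * h) * B ≤ (Fintype.card (G × V → Bool) : ℝ) * B := by
    calc (T.card : ℝ) * Λ ^ (2 * h) * B = (T.card : ℝ) * (B * Λ ^ (2 * h)) := by ring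
      _ ≤ _ := h2.trans (h3.trans hm)
  exact le_of_mul_le_mul_right h4 hB0

end Vale.Agent.P336
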