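import Vale.Agent.P336.Core

/-!
Windows. `sum_Win`: bijection with `t : U → Option (Fin B)`, `t ↦ {z | t z.1 = some z.2}`; the card
is the number of `u` with `t u ≠ none`, so `r ^ card = ∏ u, (if t u = none then 1 else r)`, and
`∑ t, ∏ u, f (t u) = ∏ u, ∑ o, f o` (`Finset.prod_univ_sum`, `Fintype.piFinset_univ`,
`Fintype.sum_option`). `sgn_foldl`: induction on the list (`sgn_xor`). `sgn_par`: `List.prod_ofFn`.
`par_sep`: compare the products, the factors are nonzero (`Finset.mul_prod_erase`, `sgn_inj`).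
`chr_sep`: if `z ∉ a` both values are `y z`; otherwise the other places of the bucket of `z` are
outside `a`; use `par_sep`.
-/

namespace Vale.Agent.P336

open Finset

theorem Win_down {U : Type} [Fintype U] {B : ℕ} :
    ∀ a ∈ Win U B, ∀ b, b ⊆ a → b ∈ Win U B := by
  intro a ha b hb
  exact mem_Win.2 fun z hz z' hz' => mem_Win.1 ha z (hb hz) z' (hb hz')

theorem card_le_of_Win {U : Type} [Fintype U] {B : ℕ} {a : Finset (U × Fin B)} (ha : a ∈ Win U B) :
    a.card ≤ Fintype.card U := by
  exact card_le_card_of_injOn Prod.fst (fun _ _ => mem_coe.2 (mem_univ _))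
    fun z hz z' hz' => mem_Win.1 ha z hz z' hz'

theorem sum_Win (U : Type) [Fintype U] (B : ℕ) (r : ℝ) :
    ∑ a ∈ Win U B, r ^ a.card = (1 + B * r) ^ Fintype.card U := by
  classical
  have h : (1 + B * r) ^ Fintype.card U =
      ∑ t : U → Option (Fin B), ∏ u, if t u = none then 1 else r := by
    rw [← Fintype.piFinset_univ,
      ← Finset.prod_univ_sum (fun _ => univ) fun _ (o : Option (Fin B)) => if o = none then 1 else r]
    simp [Fintype.sum_option]
  rw [h]
  symm
  refine sum_bij (fun t _ => univ.filter fun z => t z.1 = some z.2) (fun t _ => ?_)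
    (fun t _ t' _ e => ?_) (fun a ha => ?_) fun t _ => ?_
  · refine mem_Win.2 fun z hz z' hz' e => Prod.ext e (Option.some.inj ?_)
    rw [← (mem_filter.1 hz).2, ← (mem_filter.1 hz').2, e]
  · funext u
    exact Option.ext fun b => by simpa using Finset.ext_iff.1 e (u, b)
  · refine ⟨fun u => if h : ∃ b, (u, b) ∈ a then some h.choose else none, mem_univ _, ?_⟩
    ext ⟨u, b⟩
    simp only [mem_filter, mem_univ, true_and]
    split_ifs with h
    · refine ⟨fun e => Option.some.inj e ▸ h.choose_spec, fun hb => ?_⟩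
      exact congrArg (fun z => some z.2) (mem_Win.1 ha _ h.choose_spec _ hb rfl)
    · exact ⟨fun e => absurd e (by simp), fun hb => absurd ⟨b, hb⟩ h⟩
  · rw [prod_ite, prod_const_one, one_mul, prod_const]
    congr 1
    symm
    refine card_bij (fun z _ => z.1) (fun z hz => ?_) (fun z hz z' hz' e => ?_) fun u hu => ?_
    · simp [(mem_filter.1 hz).2]
    · refine Prod.ext e (Option.some.inj ?_)
      rw [← (mem_filter.1 hz).2, ← (mem_filter.1 hz').2, e]
    · obtain ⟨b, hb⟩ := Option.ne_none_iff_exists'.1 (mem_filter.1 hu).2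
      exact ⟨(u, b), mem_filter.2 ⟨mem_univ _, hb⟩, rfl⟩

theorem sgn_foldl (L : List Bool) (b : Bool) : sgn (L.foldl xor b) = sgn b * (L.map sgn).prod := by
  induction L generalizing b with
  | nil => simp
  | cons x L ih => rw [List.foldl_cons, ih, sgn_xor, List.map_cons, List.prod_cons, mul_assoc]

theorem sgn_par {B : ℕ} (g : Fin B → Bool) : sgn (par g) = ∏ b, sgn (g b) := by
  rw [par, sgn_foldl, List.map_ofFn, List.prod_ofFn]
  simp [sgn]

theorem par_sep {B : ℕ} {g g' : Fin B → Bool} (b : Fin B) (h : ∀ b', b' ≠ b → g b' = g' b')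
    (hp : par g = par g') : g b = g' b := by
  have h1 := congrArg sgn hp
  rw [sgn_par, sgn_par, ← mul_prod_erase _ _ (mem_univ b), ← mul_prod_erase _ _ (mem_univ b),
    prod_congr rfl fun b' hb' => congrArg sgn (h b' (ne_of_mem_erase hb'))] at h1
  refine sgn_inj.1 (mul_right_cancel₀ (prod_ne_zero_iff.2 fun b' _ e => ?_) h1)
  have := abs_sgn (g' b')
  simp [e] at this

theorem chr_sep {c l B : ℕ} {a : Finset (Var c l B)} (ha : a ∈ Win (Fin c × Fin l) B)
    (y : Var c l B → Bool) : ∀ x ∈ fib y a, ∀ x' ∈ fib y a, ∀ i : Fin c, chr i x = chr i x' →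
      ∀ z : Var c l B, z.1.1 = i → x z = x' z := by
  rintro x hx x' hx' i h ⟨⟨i', j⟩, b⟩ rfl
  by_cases hz : ((i', j), b) ∈ a
  · refine par_sep (g := fun b => x ((i', j), b)) (g' := fun b => x' ((i', j), b)) b
      (fun b' hb' => ?_) (congrFun h j)
    have h1 : ((i', j), b') ∉ a := fun h1 =>
      hb' (congrArg Prod.snd (mem_Win.1 ha _ h1 _ hz rfl))
    exact (mem_fib.1 hx _ h1).trans (mem_fib.1 hx' _ h1).symm
  · exact (mem_fib.1 hx _ hz).trans (mem_fib.1 hx' _ hz).symm

end Vale.Agent.P336
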