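import Vale.Agent.P336.Dec2
import Vale.Agent.P336.Mom2
import Vale.Agent.P336.Win

/-!
Few seeds are bad for a fixed subcube. Let `h = 2^q`, `Λ = 2^(4 m)`,
`E0 = (3/2)^|a| * h^c * Λ`; from `c * l = 256 m`, `l = 16 q` get `q c = 16 m`, so
`2^(12 m) * E0 = 2^(32 m) * (3/2)^|a|`. Take `𝒟` from `dec y a` (`card_le_of_Win`). Every `s ∈ T`
has some `Q ∈ 𝒟` with `E0 < |∑_Q Fs chr s|` (contrapositive of the last part of `dec`), so
`T ⊆ 𝒟.biUnion fun Q => univ.filter ...`; by `markov` (with `grp z = z.1.1`, `chr_sep`) each piece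
has `card * Λ^(2h) ≤ card S`. Hence `|T| * 2^(8 m h) ≤ 2^(4 m h) * card S`, and `16 m ≤ 4 m h`.
-/

namespace Vale.Agent.P336

open Finset

theorem bad_seeds {c l B q w m : ℕ} (hw : 1 ≤ w) (hq : 2 ≤ q) (hl : l = 16 * q)
    (hu : c * l = 256 * m)
    (hNp : (2 * (2 * (256 * m) + 1) ^ w + 1) ^ (2 ^ (256 * w) * (256 * m + 1)) ≤
      2 ^ (2 ^ q * (4 * m)))
    {a : Finset (Var c l B)} (ha : a ∈ Win (Fin c × Fin l) B) (y : Var c l B → Bool)
    (T : Finset (Fin c × (Fin l → Bool) → Bool))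
    (hT : ∀ s ∈ T, y ∈ badY (Fs chr s) w a (2 ^ (32 * m) * (3 / 2) ^ a.card)) :
    (T.card : ℝ) * 2 ^ (16 * m) ≤ Fintype.card (Fin c × (Fin l → Bool) → Bool) := by
  classical
  have ha' : a.card ≤ 256 * m := by
    have := card_le_of_Win ha
    rwa [Fintype.card_prod, Fintype.card_fin, Fintype.card_fin, hu] at this
  obtain ⟨𝒟, h1, h2, h3⟩ := dec y a hw ha'
  have hqc : q * c = 16 * m := by
    have : 16 * (q * c) = 16 * (16 * m) := by
      rw [← mul_assoc, ← hl, mul_comm l, hu]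
      ring
    omega
  obtain ⟨E0, hE⟩ : ∃ E0 : ℝ, E0 = (3 / 2) ^ a.card * ((2 ^ q : ℕ) : ℝ) ^ Fintype.card (Fin c) *
    2 ^ (4 * m) := ⟨_, rfl⟩
  have hE0 : 0 ≤ E0 := by
    rw [hE]
    positivity
  have hE1 : (2 : ℝ) ^ (32 * m) * (3 / 2) ^ a.card = 2 ^ (12 * m) * E0 := by
    rw [hE, Fintype.card_fin, Nat.cast_pow, Nat.cast_ofNat, ← pow_mul, hqc,
      show 32 * m = 12 * m + 16 * m + 4 * m by ring, pow_add, pow_add]
    ring
  have hsub : T ⊆ 𝒟.biUnion fun Q => univ.filter fun s => E0 < |∑ x ∈ Q, Fs chr s x| := by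
    intro s hs
    by_contra hn
    refine mem_badY.1 (hT s hs) (hE1 ▸ h3 _ E0 hE0 fun Q hQ => not_lt.1 fun hlt => hn ?_)
    exact mem_biUnion.2 ⟨Q, hQ, mem_filter.2 ⟨mem_univ _, hlt⟩⟩
  have hm : ∀ Q ∈ 𝒟, ((univ.filter fun s : Fin c × (Fin l → Bool) → Bool =>
      E0 < |∑ x ∈ Q, Fs chr s x|).card : ℝ) * (2 ^ (4 * m)) ^ (2 * 2 ^ q) ≤
      Fintype.card (Fin c × (Fin l → Bool) → Bool) := fun Q hQ =>
    markov (fun z => z.1.1) chr y a (chr_sep ha y) Nat.one_le_two_pow (h2 Q hQ) (by positivity) _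
      fun s hs => hE ▸ (mem_filter.1 hs).2
  have h4 : (T.card : ℝ) ≤ ∑ Q ∈ 𝒟, ((univ.filter fun s : Fin c × (Fin l → Bool) → Bool =>
      E0 < |∑ x ∈ Q, Fs chr s x|).card : ℝ) := by
    exact_mod_cast (card_le_card hsub).trans card_biUnion_le
  have h5 : (𝒟.card : ℝ) ≤ 2 ^ (2 ^ q * (4 * m)) := by exact_mod_cast h1.trans hNp
  have h6 : (T.card : ℝ) * (2 ^ (4 * m)) ^ (2 * 2 ^ q) ≤
      2 ^ (2 ^ q * (4 * m)) * Fintype.card (Fin c × (Fin l → Bool) → Bool) := by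
    refine (mul_le_mul_of_nonneg_right h4 (by positivity)).trans ?_
    rw [sum_mul]
    refine (sum_le_card_nsmul _ _ _ hm).trans ?_
    rw [nsmul_eq_mul]
    exact mul_le_mul_of_nonneg_right h5 (Nat.cast_nonneg _)
  have h7 : ((2 : ℝ) ^ (4 * m)) ^ (2 * 2 ^ q) = 2 ^ (2 ^ q * (4 * m)) * 2 ^ (2 ^ q * (4 * m)) := by
    rw [← pow_mul, ← pow_add]
    congr 1
    ring
  have h8 : 16 * m ≤ 2 ^ q * (4 * m) := by
    have : 2 ^ 2 ≤ 2 ^ q := Nat.pow_le_pow_right (by norm_num) hq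
    calc 16 * m = 2 ^ 2 * (4 * m) := by ring
      _ ≤ _ := Nat.mul_le_mul_right _ this
  rw [h7, mul_left_comm] at h6
  exact (mul_le_mul_of_nonneg_left (pow_le_pow_right₀ one_le_two h8) (Nat.cast_nonneg _)).trans
    (le_of_mul_le_mul_left h6 (by positivity))

end Vale.Agent.P336
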