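import Vale.Agent.P336.Exp
import Vale.Agent.P336.Cnt

/-!
MAIN1: averaging over windows.
`window_bound`: let `N = Fintype.card (Term X)`; `noM C N (fib y a) = fib y a ∩ free C` (`rk_lt`).
Double counting (`fib_symm`, `card_fib`, `sum_fib_swap`):
`∑_y ∑_{x ∈ fib y a} h x = 2^|a| ∑_x h x`. Apply it to `h = F` times the indicator of `free C`:
`2^|a| ∑_{free C} F = ∑_y ∑_{noM C N (fib y a)} F`. For `y ∉ badY` use `exp_bound` with
`y0 = y, a0 = a, A = fib y a` (closed, trivially), for `y ∈ badY` the bound `2^|a|` (`hF`,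
`card_fib`). Apply `sum_fib_swap` to `gw C w N · a` and divide by `2^|a|`.
`main1`: multiply `window_bound` (with `E = δ (3/2)^|a|`) by `(1/B)^|a|`, sum over `a ∈ W`, swap the
sums and use `cnt_bound` with `ρ = 3 / (2 B)` for every `y` (`(1/B)^n (3/2)^n = ρ^n`,
`ρ / 2 = 3 / (4 B)`, `card (X → Bool) = 2 ^ card X`).
-/

namespace Vale.Agent.P336

open Finset

variable {X : Type} [Fintype X] [DecidableEq X]

theorem sum_fib_swap (a : Finset X) (h : (X → Bool) → ℝ) :
    ∑ y, ∑ x ∈ fib y a, h x = 2 ^ a.card * ∑ x, h x := by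
  rw [sum_comm' (t' := univ) (s' := fun x => fib x a) fun y x => by
    simp only [mem_univ, true_and, and_true]
    exact fib_symm, mul_sum]
  refine sum_congr rfl fun x _ => ?_
  rw [sum_const, card_fib, nsmul_eq_mul]
  push_cast
  rfl

theorem window_bound (C : Finset (Term X)) {w : ℕ} (hw : 1 ≤ w) {F : (X → Bool) → ℝ}
    (hF : ∀ x, |F x| ≤ 1) (a : Finset X) {E : ℝ} (hE : 0 ≤ E) :
    |∑ x ∈ free C, F x| ≤
      E * ∑ y, gw C w (Fintype.card (Term X)) y a + ((badY F w a E).card : ℝ) := by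
  classical
  have h1 : ∀ y, ∑ x ∈ fib y a, (if x ∈ free C then F x else 0) =
      ∑ x ∈ noM C (Fintype.card (Term X)) (fib y a), F x := by
    intro y
    rw [← sum_filter]
    refine sum_congr ?_ fun _ _ => rfl
    ext x
    rw [mem_filter, mem_noM, mem_free]
    exact and_congr_right fun _ => ⟨fun h τ hτ _ => h τ hτ, fun h τ hτ => h τ hτ (rk_lt τ)⟩
  have h2 := sum_fib_swap a fun x => if x ∈ free C then F x else 0
  rw [sum_ite_mem, univ_inter, sum_congr rfl fun y _ => h1 y] at h2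
  have h3 : ∀ y, |∑ x ∈ noM C (Fintype.card (Term X)) (fib y a), F x| ≤
      E * ∑ y' ∈ fib y a, gw C w (Fintype.card (Term X)) y' a +
        if y ∈ badY F w a E then (2 : ℝ) ^ a.card else 0 := by
    intro y
    split_ifs with hy
    · have e1 : 0 ≤ E * ∑ y' ∈ fib y a, gw C w (Fintype.card (Term X)) y' a :=
        mul_nonneg hE (sum_nonneg fun y' _ => gw_nonneg C w _ y' a)
      have e2 : ∑ x ∈ noM C (Fintype.card (Term X)) (fib y a), |F x| ≤
          ∑ _x ∈ fib y a, (1 : ℝ) :=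
        (sum_le_sum fun x _ => hF x).trans (sum_le_sum_of_subset_of_nonneg
          (fun x hx => (mem_noM.1 hx).1) fun _ _ _ => zero_le_one)
      rw [sum_const, card_fib, nsmul_eq_mul, mul_one] at e2
      push_cast at e2
      have e3 := abs_sum_le_sum_abs F (noM C (Fintype.card (Term X)) (fib y a))
      linarith
    · rw [add_zero]
      exact exp_bound C hw hE (not_not.1 fun h => hy (mem_badY.2 h)) _ _ a y _ le_rfl Subset.rfl
        ⟨Subset.rfl, fun x hx hx' => absurd hx hx'⟩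
  have h4 := (abs_sum_le_sum_abs _ univ).trans (sum_le_sum fun y _ => h3 y)
  rw [h2, sum_add_distrib, ← mul_sum, sum_fib_swap, sum_ite_mem, univ_inter, sum_const,
    nsmul_eq_mul, abs_mul, abs_of_pos (by positivity : (0 : ℝ) < 2 ^ a.card)] at h4
  refine le_of_mul_le_mul_left (h4.trans (le_of_eq ?_)) (by positivity : (0 : ℝ) < 2 ^ a.card)
  ring

theorem main1 (C : Finset (Term X)) {w k : ℕ} (hw : 1 ≤ w) (W : Finset (Finset X))
    (hW : ∀ a ∈ W, ∀ b, b ⊆ a → b ∈ W) (hk : ∀ τ ∈ C, (supp τ).card ≤ k) {B δ : ℝ} (hB : 0 < B)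
    (hδ : 0 ≤ δ) (hpow : (1 + 3 / B) ^ k ≤ 2 ^ w) {F : (X → Bool) → ℝ} (hF : ∀ x, |F x| ≤ 1) :
    (∑ a ∈ W, (1 / B) ^ a.card) * |∑ x ∈ free C, F x| ≤
      2 * δ * 2 ^ Fintype.card X * ∑ a ∈ W, (3 / (4 * B)) ^ a.card +
        ∑ a ∈ W, (1 / B) ^ a.card * ((badY F w a (δ * (3 / 2) ^ a.card)).card : ℝ) := by
  have hρ : 0 ≤ 3 / (2 * B) := by positivity
  have e0 : 2 * (3 / (2 * B)) = 3 / B := by field_simp
  have e1 : 3 / (2 * B) / 2 = 3 / (4 * B) := by field_simp; norm_num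
  have e2 : 1 / B * (3 / 2) = 3 / (2 * B) := by field_simp
  have h1 : ∀ y, ∑ a ∈ W, (3 / (2 * B)) ^ a.card * gw C w (Fintype.card (Term X)) y a ≤
      2 * ∑ a ∈ W, (3 / (4 * B)) ^ a.card := fun y => by
    have := cnt_bound C W hW hk hρ (by rw [e0]; exact hpow) y (Fintype.card (Term X))
    rwa [e1] at this
  have h2 : ∀ a ∈ W, (1 / B) ^ a.card * |∑ x ∈ free C, F x| ≤
      δ * ∑ y, (3 / (2 * B)) ^ a.card * gw C w (Fintype.card (Term X)) y a +
        (1 / B) ^ a.card * ((badY F w a (δ * (3 / 2) ^ a.card)).card : ℝ) := by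
    intro a _
    refine (mul_le_mul_of_nonneg_left
      (window_bound C hw hF a (E := δ * (3 / 2) ^ a.card) (by positivity))
      (by positivity)).trans (le_of_eq ?_)
    rw [← mul_sum, ← e2, mul_pow]
    ring
  have h3 := sum_le_sum fun y (_ : y ∈ (univ : Finset (X → Bool))) => h1 y
  rw [sum_const, card_univ, Fintype.card_fun, Fintype.card_bool, nsmul_eq_mul, sum_comm] at h3
  push_cast at h3
  rw [sum_mul]
  refine (sum_le_sum h2).trans ?_
  rw [sum_add_distrib, ← mul_sum]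
  have h4 := mul_le_mul_of_nonneg_left h3 hδ
  linarith

end Vale.Agent.P336
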