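import Vale.Agent.P336.Cor1
import Vale.Agent.P336.Main1

/-!
One seed is good for all CNFs of width at most `k`. Let `W = Win (Fin c × Fin l) B`,
`N = 2 ^ card (Var c l B)`, `β s = ∑ a ∈ W, (1/B)^|a| * |badY (Fs chr s) w a (2^(32 m) (3/2)^|a|)|`.
Double counting (`card_filter` as a sum of indicators, `sum_comm`) and `bad_seeds` give
`∑_s β s ≤ card S * (N / 2^(16 m)) * ∑ a ∈ W, (1/B)^|a|`, so some `s` has
`β s ≤ (N / 2^(16 m)) * ∑ a ∈ W, (1/B)^|a|` (`Finset.exists_le_of_sum_le`). By `sum_Win` the two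
window sums are `2^(256 m)` and `(7/4)^(256 m)`. Apply `main1` with `δ = 2^(32 m)` (`Win_down`,
`abs_Fs`), divide by `2^(256 m)` and use `(7/8)^16 ≤ 1/8`, i.e. `(7/4)^(256 m) * 2^(48 m) ≤ 2^(256 m)`.
-/

namespace Vale.Agent.P336

open Finset

theorem num_Cor2 (m : ℕ) : (7 / 4 : ℝ) ^ (256 * m) * 2 ^ (32 * m) * 2 ^ (16 * m) ≤ 2 ^ (256 * m) := by
  have h : ((7 / 4 : ℝ) ^ 16 * 2 ^ 2 * 2 ^ 1) ≤ 2 ^ 16 := by norm_num
  have h2 := pow_le_pow_left₀ (by positivity) h (16 * m)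
  rw [mul_pow, mul_pow, ← pow_mul, ← pow_mul, ← pow_mul, ← pow_mul] at h2
  rwa [show 16 * (16 * m) = 256 * m by ring, show 2 * (16 * m) = 32 * m by ring, one_mul] at h2

theorem count_Cor2 {S Y : Type} [Fintype S] [Fintype Y] (bad : S → Finset Y) {M : ℝ} (hM : 0 < M)
    (h : ∀ (y : Y) (T : Finset S), (∀ s ∈ T, y ∈ bad s) → (T.card : ℝ) * M ≤ Fintype.card S) :
    ∑ s, ((bad s).card : ℝ) ≤ Fintype.card S * (Fintype.card Y / M) := by
  classical
  have e : ∑ s, ((bad s).card : ℝ) = ∑ y : Y, ((univ.filter fun s => y ∈ bad s).card : ℝ) := by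
    have e1 : ∀ s, ((bad s).card : ℝ) = ∑ y : Y, if y ∈ bad s then (1 : ℝ) else 0 := fun s => by
      simp
    have e2 : ∀ y : Y, ((univ.filter fun s => y ∈ bad s).card : ℝ) =
        ∑ s : S, if y ∈ bad s then (1 : ℝ) else 0 := fun y => by
      simp
    simp only [e1, e2]
    exact sum_comm
  rw [e]
  have h1 : ∀ y ∈ (univ : Finset Y), ((univ.filter fun s => y ∈ bad s).card : ℝ) ≤
      Fintype.card S / M := fun y _ => by
    rw [le_div_iff₀ hM]
    exact h y _ fun s hs => (mem_filter.1 hs).2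
  refine (sum_le_sum h1).trans (le_of_eq ?_)
  rw [sum_const, card_univ, nsmul_eq_mul]
  ring

theorem cor_total {c l B q w m k : ℕ} (hB : 1 ≤ B) (hw : 1 ≤ w) (hq : 2 ≤ q) (hl : l = 16 * q)
    (hu : c * l = 256 * m) (hpow : (1 + 3 / (B : ℝ)) ^ k ≤ 2 ^ w)
    (hNp : (2 * (2 * (256 * m) + 1) ^ w + 1) ^ (2 ^ (256 * w) * (256 * m + 1)) ≤
      2 ^ (2 ^ q * (4 * m))) :
    ∃ s : Fin c × (Fin l → Bool) → Bool, ∀ C : Finset (Term (Var c l B)),
      (∀ τ ∈ C, (supp τ).card ≤ k) →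
      |∑ x ∈ free C, Fs chr s x| ≤ 3 / 2 ^ (16 * m) * 2 ^ Fintype.card (Var c l B) := by
  have hB' : (0 : ℝ) < B := by exact_mod_cast hB
  have hcard : Fintype.card (Fin c × Fin l) = 256 * m := by simp [hu]
  have hN : (Fintype.card (Var c l B → Bool) : ℝ) = 2 ^ Fintype.card (Var c l B) := by
    rw [Fintype.card_fun, Fintype.card_bool]
    push_cast
    rfl
  have w1 : ∑ a ∈ Win (Fin c × Fin l) B, (1 / (B : ℝ)) ^ a.card = 2 ^ (256 * m) := by
    rw [sum_Win, hcard, mul_one_div_cancel hB'.ne']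
    norm_num
  have w2 : ∑ a ∈ Win (Fin c × Fin l) B, (3 / (4 * (B : ℝ))) ^ a.card = (7 / 4) ^ (256 * m) := by
    rw [sum_Win, hcard]
    congr 1
    field_simp
    norm_num
  have hsum : ∑ s : Fin c × (Fin l → Bool) → Bool, ∑ a ∈ Win (Fin c × Fin l) B,
      (1 / (B : ℝ)) ^ a.card *
        ((badY (Fs chr s) w a (2 ^ (32 * m) * (3 / 2) ^ a.card)).card : ℝ) ≤
      ∑ _s : Fin c × (Fin l → Bool) → Bool,
        (2 : ℝ) ^ Fintype.card (Var c l B) / 2 ^ (16 * m) * 2 ^ (256 * m) := by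
    rw [sum_comm, sum_const, card_univ, nsmul_eq_mul, ← w1, ← mul_assoc, mul_sum]
    refine sum_le_sum fun a ha => ?_
    rw [← mul_sum, mul_comm]
    refine mul_le_mul_of_nonneg_right ?_ (by positivity)
    rw [← hN]
    exact count_Cor2 _ (by positivity) fun y T hT => bad_seeds hw hq hl hu hNp ha y T hT
  obtain ⟨s, -, hs⟩ := exists_le_of_sum_le univ_nonempty hsum
  refine ⟨s, fun C hC => ?_⟩
  have h1 := main1 C hw (Win (Fin c × Fin l) B) Win_down hC hB'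
    (δ := 2 ^ (32 * m)) (by positivity) hpow (F := Fs chr s) fun x => (abs_Fs _ _ x).le
  rw [w1, w2] at h1
  have h2 := num_Cor2 m
  have p1 : (0 : ℝ) < 2 ^ (256 * m) := by positivity
  have p2 : (0 : ℝ) < 2 ^ (16 * m) := by positivity
  have p3 : (0 : ℝ) < 2 ^ Fintype.card (Var c l B) := by positivity
  have h3 : (7 / 4 : ℝ) ^ (256 * m) * 2 ^ (32 * m) ≤ 2 ^ (256 * m) / 2 ^ (16 * m) := by
    rwa [le_div_iff₀ p2]
  have h4 := mul_le_mul_of_nonneg_left h3 (by positivity :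
    (0 : ℝ) ≤ 2 * 2 ^ Fintype.card (Var c l B))
  refine le_of_mul_le_mul_left ?_ p1
  calc _ ≤ _ := h1
    _ ≤ 2 * 2 ^ Fintype.card (Var c l B) * (2 ^ (256 * m) / 2 ^ (16 * m)) +
        (2 : ℝ) ^ Fintype.card (Var c l B) / 2 ^ (16 * m) * 2 ^ (256 * m) :=
      add_le_add (le_of_eq_of_le (by ring) h4) hs
    _ = _ := by ring

end Vale.Agent.P336
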