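import Mathlib

/-!
P336 core definitions. `X` is a finite set of variables, points are maps `X → Bool`, a term is a
finite set of literals (a conjunction); a CNF accepts the points that match none of its terms.
-/

namespace Vale.Agent.P336

open Finset

/-- terms -/
abbrev Term (X : Type) : Type := Finset (X × Bool)

variable {X : Type} [Fintype X] [DecidableEq X]

/-- `x` matches the term `τ` -/
def mt (x : X → Bool) (τ : Term X) : Prop := ∀ l ∈ τ, x l.1 = l.2

/-- variables of a term -/
def supp (τ : Term X) : Finset X := τ.image Prod.fst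

/-- an injective numbering of the terms -/
noncomputable def rk (τ : Term X) : ℕ := (Fintype.equivFin (Term X) τ : ℕ)

open Classical in
/-- the subcube through `y` with free variables `a` -/
noncomputable def fib (y : X → Bool) (a : Finset X) : Finset (X → Bool) :=
  univ.filter fun x => ∀ i, i ∉ a → x i = y i

open Classical in
/-- points of `A` that match `τ` -/
noncomputable def cyl (A : Finset (X → Bool)) (τ : Term X) : Finset (X → Bool) :=
  A.filter fun x => mt x τ

open Classical in
/-- points of `A` that match no term of `C` of rank below `i` -/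
noncomputable def noM (C : Finset (Term X)) (i : ℕ) (A : Finset (X → Bool)) : Finset (X → Bool) :=
  A.filter fun x => ∀ τ ∈ C, rk τ < i → ¬ mt x τ

open Classical in
/-- points that match no term of `C` -/
noncomputable def free (C : Finset (Term X)) : Finset (X → Bool) :=
  univ.filter fun x => ∀ τ ∈ C, ¬ mt x τ

/-- `A` is cut out of `Φ` by clauses of width at most `w` -/
def Clo (w : ℕ) (Φ A : Finset (X → Bool)) : Prop :=
  A ⊆ Φ ∧ ∀ x ∈ Φ, x ∉ A → ∃ K : Finset X, K.card ≤ w ∧ ∀ x' ∈ A, ¬ ∀ i ∈ K, x' i = x i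

/-- `F` has correlation at most `E` with every width `w` CNF on the subcube -/
def COR (F : (X → Bool) → ℝ) (w : ℕ) (y : X → Bool) (a : Finset X) (E : ℝ) : Prop :=
  ∀ A, Clo w (fib y a) A → |∑ x ∈ A, F x| ≤ E

open Classical in
/-- base points where `COR` fails -/
noncomputable def badY (F : (X → Bool) → ℝ) (w : ℕ) (a : Finset X) (E : ℝ) : Finset (X → Bool) :=
  univ.filter fun y => ¬ COR F w y a E

/-- `τ` is the first term of `C` avoiding `a` that `y` matches -/
def First (C : Finset (Term X)) (y : X → Bool) (a : Finset X) (τ : Term X) : Prop :=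
  mt y τ ∧ Disjoint (supp τ) a ∧ ∀ τ' ∈ C, rk τ' < rk τ → Disjoint (supp τ') a → ¬ mt y τ'

open Classical in
/-- the wide terms that can be decoded backwards -/
noncomputable def steps (C : Finset (Term X)) (w : ℕ) (y : X → Bool) (a : Finset X) :
    Finset (Term X) :=
  C.filter fun τ => w < (a ∩ supp τ).card ∧ First C y (a \ supp τ) τ

/-- the weight function of the inclusion-exclusion expansion -/
noncomputable def gw (C : Finset (Term X)) (w : ℕ) : ℕ → (X → Bool) → Finset X → ℝ
  | 0, _, a => (1 / 2) ^ a.card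
  | j + 1, y, a => (1 / 2) ^ a.card + ∑ τ ∈ steps C w y a, gw C w j y (a \ supp τ)

/-- sign of a bit -/
def sgn (b : Bool) : ℝ := if b then -1 else 1

theorem mem_supp {τ : Term X} {i : X} : i ∈ supp τ ↔ ∃ b, (i, b) ∈ τ := by
  simp [supp]

theorem mem_supp_of {τ : Term X} {l : X × Bool} (h : l ∈ τ) : l.1 ∈ supp τ :=
  mem_image_of_mem _ h

theorem rk_inj {τ τ' : Term X} (h : rk τ = rk τ') : τ = τ' :=
  (Fintype.equivFin (Term X)).injective (Fin.ext h)

theorem rk_lt (τ : Term X) : rk τ < Fintype.card (Term X) := Fin.is_lt _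

theorem mem_fib {y x : X → Bool} {a : Finset X} : x ∈ fib y a ↔ ∀ i, i ∉ a → x i = y i := by
  simp [fib]

theorem mem_cyl {A : Finset (X → Bool)} {τ : Term X} {x : X → Bool} :
    x ∈ cyl A τ ↔ x ∈ A ∧ mt x τ := by
  simp [cyl]

theorem mem_noM {C : Finset (Term X)} {i : ℕ} {A : Finset (X → Bool)} {x : X → Bool} :
    x ∈ noM C i A ↔ x ∈ A ∧ ∀ τ ∈ C, rk τ < i → ¬ mt x τ := by
  simp [noM]

theorem mem_free {C : Finset (Term X)} {x : X → Bool} : x ∈ free C ↔ ∀ τ ∈ C, ¬ mt x τ := by
  simp [free]

theorem mem_badY {F : (X → Bool) → ℝ} {w : ℕ} {a : Finset X} {E : ℝ} {y : X → Bool} :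
    y ∈ badY F w a E ↔ ¬ COR F w y a E := by
  simp [badY]

theorem mem_steps {C : Finset (Term X)} {w : ℕ} {y : X → Bool} {a : Finset X} {τ : Term X} :
    τ ∈ steps C w y a ↔ τ ∈ C ∧ w < (a ∩ supp τ).card ∧ First C y (a \ supp τ) τ := by
  simp [steps]

theorem self_mem_fib (y : X → Bool) (a : Finset X) : y ∈ fib y a := mem_fib.2 fun _ _ => rfl

theorem fib_symm {y x : X → Bool} {a : Finset X} : x ∈ fib y a ↔ y ∈ fib x a := by
  simp only [mem_fib, eq_comm]

/-- agreeing on the support of a term -/
theorem mt_congr {x x' : X → Bool} {τ : Term X} (h : ∀ i ∈ supp τ, x i = x' i) :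
    mt x τ ↔ mt x' τ :=
  forall₂_congr fun l hl => by rw [h _ (mem_supp_of hl)]

theorem mt_agree {x x' : X → Bool} {τ : Term X} (h : mt x τ) (h' : mt x' τ) {i : X}
    (hi : i ∈ supp τ) : x i = x' i := by
  obtain ⟨b, hb⟩ := mem_supp.1 hi
  exact (h _ hb).trans (h' _ hb).symm

theorem card_fib (y : X → Bool) (a : Finset X) : (fib y a).card = 2 ^ a.card := by
  have h : fib y a = Fintype.piFinset fun i => if i ∈ a then univ else {y i} := by
    ext x
    rw [mem_fib, Fintype.mem_piFinset]
    refine forall_congr' fun i => ?_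
    by_cases hi : i ∈ a <;> simp [hi]
  rw [h, Fintype.card_piFinset]
  simp [apply_ite Finset.card, Finset.prod_ite]

theorem gw_nonneg (C : Finset (Term X)) (w : ℕ) : ∀ (j : ℕ) (y : X → Bool) (a : Finset X),
    0 ≤ gw C w j y a
  | 0, _, _ => by rw [gw]; positivity
  | j + 1, y, a => by
    rw [gw]
    exact add_nonneg (by positivity) (sum_nonneg fun τ _ => gw_nonneg C w j y _)

theorem sgn_xor (a b : Bool) : sgn (xor a b) = sgn a * sgn b := by
  cases a <;> cases b <;> simp [sgn]

theorem sgn_not (a : Bool) : sgn (!a) = - sgn a := by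
  cases a <;> simp [sgn]

theorem abs_sgn (a : Bool) : |sgn a| = 1 := by
  cases a <;> simp [sgn]

theorem sgn_inj {a b : Bool} : sgn a = sgn b ↔ a = b := by
  cases a <;> cases b <;> simp [sgn] <;> norm_num

/-! ### the hard function -/

/-- the parity of a bit vector -/
def par {B : ℕ} (g : Fin B → Bool) : Bool := (List.ofFn g).foldl xor false

/-- product of table entries: group `i` is looked up at its character -/
noncomputable def Fs {G V : Type} [Fintype G] (chr : G → (X → Bool) → V) (s : G × V → Bool)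
    (x : X → Bool) : ℝ := ∏ i, sgn (s (i, chr i x))

/-- variables: group, bucket in the group, place in the bucket -/
abbrev Var (c l B : ℕ) : Type := (Fin c × Fin l) × Fin B

/-- the vector of bucket parities of group `i` -/
def chr {c l B : ℕ} (i : Fin c) (x : Var c l B → Bool) : Fin l → Bool :=
  fun j => par fun b => x ((i, j), b)

open Classical in
/-- windows: at most one variable in every bucket -/
noncomputable def Win (U : Type) [Fintype U] (B : ℕ) : Finset (Finset (U × Fin B)) :=
  univ.filter fun a => ∀ z ∈ a, ∀ z' ∈ a, z.1 = z'.1 → z = z'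

theorem mem_Win {U : Type} [Fintype U] {B : ℕ} {a : Finset (U × Fin B)} :
    a ∈ Win U B ↔ ∀ z ∈ a, ∀ z' ∈ a, z.1 = z'.1 → z = z' := by
  simp [Win]

theorem abs_Fs {G V : Type} [Fintype G] (ch : G → (X → Bool) → V) (s : G × V → Bool)
    (x : X → Bool) : |Fs ch s x| = 1 := by
  rw [Fs, abs_prod]
  simp [abs_sgn]

end Vale.Agent.P336
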