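import Vale.Agent.P336.DecDefs

/-!
DEC induction on `j`, generalizing `Y T0`. If `Y = ∅` (forced when `j = 0`) take `𝒯 = ∅`.
Step, `Y` nonempty.
* Case 1: some `τ ∈ P` is not rare in `Y` and no point of `A` matches `τ`. Then
  `A ∩ Y = A ∩ del Y τ`, `|del Y τ| = |Y| - |cyl Y τ| ≤ (1 - 1/Θ) |Y|`; use the induction
  hypothesis for `del Y τ` with the same `T0`.
* Case 2: otherwise. Let `R = {τ ∈ P | rare Θ Y τ}`. Then `leaf P Θ Y ⊆ A` (a point of `Y` outside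
  `A` matches a forbidden pattern by `hA`, which is rare), and `A ∩ Y` is the disjoint union of
  `leaf P Θ Y` and the sets `A ∩ br P Θ Y τ`, `τ ∈ R` (least rank rare pattern, `rk_inj`).
  `|br τ| Θ ≤ |cyl Y τ| Θ < |Y|`, so `|br τ| ≤ (1 - 1/Θ) |Y|` as `2 ≤ Θ`. Induction hypothesis
  for `br τ` with `T0 ∪ τ` gives `𝒯 τ` (`choose`). Take `insert T0 (R.biUnion 𝒯)`:
  the `𝒯 τ` are pairwise disjoint (if `T ∈ 𝒯 τ ∩ 𝒯 τ'` with `rk τ' < rk τ`, the witness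
  `x ∈ br τ` matches `T ⊇ τ'`, impossible), and `T0 ∉ 𝒯 τ` (else `τ ⊆ T0`, every point of `Y`
  matches `τ`, `cyl Y τ = Y` is not rare). Depth `d + 1` for the tags of `𝒯 τ`, depth 0 for `T0`.
-/

namespace Vale.Agent.P336

open Finset

variable {X : Type} [Fintype X] [DecidableEq X]

theorem size_Dec1 {Θ n m j : ℕ} (hΘ : 2 ≤ Θ) (h : (m : ℝ) ≤ n * (1 - 1 / (Θ : ℝ)))
    (hn : (n : ℝ) * (1 - 1 / (Θ : ℝ)) ^ (j + 1) < 1) : (m : ℝ) * (1 - 1 / (Θ : ℝ)) ^ j < 1 := by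
  have h1 : (2 : ℝ) ≤ Θ := by exact_mod_cast hΘ
  have h2 : 0 ≤ 1 - 1 / (Θ : ℝ) := sub_nonneg.2 ((div_le_one (by linarith)).2 (by linarith))
  refine (mul_le_mul_of_nonneg_right h (pow_nonneg h2 j)).trans_lt ?_
  rwa [mul_assoc, ← pow_succ']

theorem del_Dec1 {Θ : ℕ} (hΘ : 2 ≤ Θ) {Y : Finset (X → Bool)} {τ : Term X} (h : ¬ rare Θ Y τ) :
    ((del Y τ).card : ℝ) ≤ Y.card * (1 - 1 / (Θ : ℝ)) := by
  classical
  have h1 : (0 : ℝ) < Θ := by exact_mod_cast lt_of_lt_of_le two_pos hΘ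
  have h2 : (cyl Y τ).card + (del Y τ).card = Y.card := by
    rw [← card_union_of_disjoint (disjoint_left.2 fun x hx hx' =>
      (mem_del.1 hx').2 (mem_cyl.1 hx).2)]
    refine congrArg card (Finset.ext fun x => ?_)
    rw [mem_union, mem_cyl, mem_del]
    tauto
  have h3 : ((cyl Y τ).card : ℝ) + (del Y τ).card = Y.card := by exact_mod_cast h2
  have h4 : (Y.card : ℝ) ≤ (cyl Y τ).card * Θ := by exact_mod_cast not_lt.1 h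
  have h5 : (Y.card : ℝ) / Θ ≤ (cyl Y τ).card := (div_le_iff₀ h1).2 h4
  rw [mul_sub, mul_one, mul_one_div]
  linarith

theorem br_Dec1 {P : Finset (Term X)} {Θ : ℕ} {Y : Finset (X → Bool)} {τ : Term X}
    (h : rare Θ Y τ) : (br P Θ Y τ).card * Θ < Y.card :=
  lt_of_le_of_lt (Nat.mul_le_mul_right _ (card_le_card fun _ hx =>
    mem_cyl.2 ⟨(mem_br.1 hx).1, (mem_br.1 hx).2.1⟩)) h

theorem br2_Dec1 {Θ m n : ℕ} (hΘ : 2 ≤ Θ) (h : m * Θ < n) : (m : ℝ) ≤ n * (1 - 1 / (Θ : ℝ)) := by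
  have h1 : (2 : ℝ) ≤ Θ := by exact_mod_cast hΘ
  have h2 : (m : ℝ) * Θ ≤ n := by exact_mod_cast h.le
  have h3 : (m : ℝ) ≤ n * (1 / (Θ : ℝ)) := by
    rw [mul_one_div]
    exact (le_div_iff₀ (by linarith)).2 h2
  have h4 : 1 / (Θ : ℝ) ≤ 1 / 2 := one_div_le_one_div_of_le two_pos h1
  exact h3.trans (mul_le_mul_of_nonneg_left (by linarith) (Nat.cast_nonneg _))

theorem sum_Dec1 {P R : Finset (Term X)} {Θ : ℕ} {Y A : Finset (X → Bool)}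
    (hR : ∀ τ, τ ∈ R ↔ τ ∈ P ∧ rare Θ Y τ) (hL : leaf P Θ Y ⊆ A) (F : (X → Bool) → ℝ) :
    ∑ x ∈ A ∩ Y, F x = ∑ x ∈ leaf P Θ Y, F x + ∑ τ ∈ R, ∑ x ∈ A ∩ br P Θ Y τ, F x := by
  classical
  have key : ∀ τ ∈ R, ∀ σ ∈ R, rk σ < rk τ → ∀ x ∈ br P Θ Y τ, x ∉ br P Θ Y σ :=
    fun τ _ σ hσ h x hx hx' =>
      (mem_br.1 hx).2.2 σ ((hR σ).1 hσ).1 h ((hR σ).1 hσ).2 (mem_br.1 hx').2.1
  rw [← sum_biUnion, ← sum_union]
  · refine sum_congr (Finset.ext fun x => ?_) fun _ _ => rfl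
    rw [mem_union, mem_biUnion, mem_inter]
    constructor
    · rintro ⟨h1, h2⟩
      by_cases h : x ∈ leaf P Θ Y
      · exact Or.inl h
      · have h3 : (R.filter fun τ => mt x τ).Nonempty := by
          by_contra h4
          exact h (mem_leaf.2 ⟨h2, fun τ hτ hr hm =>
            h4 ⟨τ, mem_filter.2 ⟨(hR τ).2 ⟨hτ, hr⟩, hm⟩⟩⟩)
        obtain ⟨τ, hτ, hmin⟩ := exists_min_image _ rk h3
        exact Or.inr ⟨τ, (mem_filter.1 hτ).1, mem_inter.2 ⟨h1, mem_br.2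
          ⟨h2, (mem_filter.1 hτ).2, fun σ hσ hlt hr hm =>
            absurd (hmin σ (mem_filter.2 ⟨(hR σ).2 ⟨hσ, hr⟩, hm⟩)) (not_le.2 hlt)⟩⟩⟩
    · rintro (h | ⟨τ, _, h⟩)
      · exact ⟨hL h, (mem_leaf.1 h).1⟩
      · exact ⟨(mem_inter.1 h).1, (mem_br.1 (mem_inter.1 h).2).1⟩
  · refine disjoint_left.2 fun x hx hx' => ?_
    obtain ⟨τ, hτ, h⟩ := mem_biUnion.1 hx'
    exact (mem_leaf.1 hx).2 τ ((hR τ).1 hτ).1 ((hR τ).1 hτ).2 (mem_br.1 (mem_inter.1 h).2).2.1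
  · intro τ hτ σ hσ hne
    refine disjoint_left.2 fun x hx hx' => ?_
    rcases lt_trichotomy (rk σ) (rk τ) with h | h | h
    · exact key τ hτ σ hσ h x (mem_inter.1 hx).2 (mem_inter.1 hx').2
    · exact hne (rk_inj h).symm
    · exact key σ hσ τ hτ h x (mem_inter.1 hx').2 (mem_inter.1 hx).2

theorem dec_ind {a : Finset X} {w Θ : ℕ} (hΘ : 2 ≤ Θ) {Φ A : Finset (X → Bool)}
    (hA : ∀ x ∈ Φ, x ∉ A → ∃ τ ∈ Pat a w, mt x τ ∧ ∀ x' ∈ A, ¬ mt x' τ)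
    {F : (X → Bool) → ℝ} {E0 : ℝ} (hE : 0 ≤ E0) (j : ℕ) :
    ∀ (Y : Finset (X → Bool)) (T0 : Term X), Y ⊆ Φ → (∀ x ∈ Y, mt x T0) → (∀ l ∈ T0, l.1 ∈ a) →
      (Y.card : ℝ) * (1 - 1 / (Θ : ℝ)) ^ j < 1 →
      (∀ Q ∈ Dcl (Pat a w) Θ j Y, |∑ x ∈ Q, F x| ≤ E0) →
      ∃ 𝒯 : Finset (Term X), |∑ x ∈ A ∩ Y, F x| ≤ E0 * 𝒯.card ∧
        ∀ T ∈ 𝒯, T0 ⊆ T ∧ (∀ l ∈ T, l.1 ∈ a) ∧ (∃ x ∈ Y, mt x T) ∧
          ∃ d : ℕ, T.card ≤ T0.card + w * d ∧ Θ ^ d ≤ Y.card := by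
  classical
  induction j with
  | zero =>
    intro Y T0 _ _ _ hn _
    have h : Y.card < 1 := by
      rw [pow_zero, mul_one] at hn
      exact_mod_cast hn
    obtain rfl : Y = ∅ := card_eq_zero.1 (by omega)
    exact ⟨∅, by simp, by simp⟩
  | succ j ih =>
    intro Y T0 hY hT ha hn hQ
    rcases Y.eq_empty_or_nonempty with rfl | hne
    · exact ⟨∅, by simp, by simp⟩
    by_cases hc : ∃ τ ∈ Pat a w, ¬ rare Θ Y τ ∧ ∀ x ∈ A, ¬ mt x τ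
    · obtain ⟨τ, hτ, hr, hf⟩ := hc
      have hs : del Y τ ⊆ Y := fun x hx => (mem_del.1 hx).1
      obtain ⟨𝒯, h1, h2⟩ := ih (del Y τ) T0 (hs.trans hY) (fun x hx => hT x (hs hx)) ha
        (size_Dec1 hΘ (del_Dec1 hΘ hr) hn) fun Q hq =>
          hQ Q (mem_Dcl_succ.2 (Or.inr ⟨τ, hτ, Or.inl hq⟩))
      have e : A ∩ Y = A ∩ del Y τ := Finset.ext fun x => by
        rw [mem_inter, mem_inter, mem_del]
        exact ⟨fun h => ⟨h.1, h.2, hf x h.1⟩, fun h => ⟨h.1, h.2.1⟩⟩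
      refine ⟨𝒯, e ▸ h1, fun T hT' => ?_⟩
      obtain ⟨b1, b2, ⟨x, b3, b4⟩, d, b5, b6⟩ := h2 T hT'
      exact ⟨b1, b2, ⟨x, hs b3, b4⟩, d, b5, b6.trans (card_le_card hs)⟩
    have hL : leaf (Pat a w) Θ Y ⊆ A := fun x hx => by
      by_contra hxA
      obtain ⟨τ, hτ, hm, hf⟩ := hA x (hY (mem_leaf.1 hx).1) hxA
      exact (mem_leaf.1 hx).2 τ hτ (by_contra fun hr => hc ⟨τ, hτ, hr, hf⟩) hm
    obtain ⟨R, hR⟩ : ∃ R : Finset (Term X), ∀ τ, τ ∈ R ↔ τ ∈ Pat a w ∧ rare Θ Y τ :=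
      ⟨(Pat a w).filter fun τ => rare Θ Y τ, fun τ => mem_filter⟩
    have hb : ∀ τ, ∃ 𝒯 : Finset (Term X), τ ∈ R →
        |∑ x ∈ A ∩ br (Pat a w) Θ Y τ, F x| ≤ E0 * 𝒯.card ∧
        ∀ T ∈ 𝒯, T0 ∪ τ ⊆ T ∧ (∀ l ∈ T, l.1 ∈ a) ∧ (∃ x ∈ br (Pat a w) Θ Y τ, mt x T) ∧
          ∃ d : ℕ, T.card ≤ (T0 ∪ τ).card + w * d ∧ Θ ^ d ≤ (br (Pat a w) Θ Y τ).card := by
      intro τ
      by_cases hτ : τ ∈ R
      · obtain ⟨h1, h2⟩ := (hR τ).1 hτ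
        obtain ⟨𝒯, h⟩ := ih (br (Pat a w) Θ Y τ) (T0 ∪ τ) (fun x hx => hY (mem_br.1 hx).1)
          (fun x hx l hl => (mem_union.1 hl).elim (hT x (mem_br.1 hx).1 l) ((mem_br.1 hx).2.1 l))
          (fun l hl => (mem_union.1 hl).elim (ha l) ((mem_Pat.1 h1).1 l))
          (size_Dec1 hΘ (br2_Dec1 hΘ (br_Dec1 h2)) hn) fun Q hq =>
            hQ Q (mem_Dcl_succ.2 (Or.inr ⟨τ, h1, Or.inr hq⟩))
        exact ⟨𝒯, fun _ => h⟩
      · exact ⟨∅, fun h => absurd h hτ⟩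
    choose 𝒯 h𝒯 using hb
    have key : ∀ τ ∈ R, ∀ σ ∈ R, rk σ < rk τ → ∀ T ∈ 𝒯 τ, T ∉ 𝒯 σ := fun τ hτ σ hσ h T h1 h2 => by
      obtain ⟨x, hx, hm⟩ := ((h𝒯 τ hτ).2 T h1).2.2.1
      exact (mem_br.1 hx).2.2 σ ((hR σ).1 hσ).1 h ((hR σ).1 hσ).2 fun l hl =>
        hm l (((h𝒯 σ hσ).2 T h2).1 (mem_union_right _ hl))
    have hd : (R : Set (Term X)).PairwiseDisjoint 𝒯 := fun τ hτ σ hσ hne => by
      refine disjoint_left.2 fun T h1 h2 => ?_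
      rcases lt_trichotomy (rk σ) (rk τ) with h | h | h
      · exact key τ hτ σ hσ h T h1 h2
      · exact hne (rk_inj h).symm
      · exact key σ hσ τ hτ h T h2 h1
    have h0 : T0 ∉ R.biUnion 𝒯 := fun h => by
      obtain ⟨τ, hτ, h1⟩ := mem_biUnion.1 h
      have h2 : Y ⊆ cyl Y τ := fun x hx => mem_cyl.2 ⟨hx, fun l hl =>
        hT x hx l (((h𝒯 τ hτ).2 T0 h1).1 (mem_union_right _ hl))⟩
      have h3 := card_le_card h2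
      have h4 : (cyl Y τ).card * Θ < Y.card := ((hR τ).1 hτ).2
      have h5 : (cyl Y τ).card * 2 ≤ (cyl Y τ).card * Θ := Nat.mul_le_mul_left _ hΘ
      omega
    refine ⟨insert T0 (R.biUnion 𝒯), ?_, fun T hT' => ?_⟩
    · rw [sum_Dec1 hR hL F, card_insert_of_notMem h0, card_biUnion hd, Nat.cast_add, Nat.cast_sum,
        Nat.cast_one, mul_add, mul_one, mul_sum, add_comm _ E0]
      exact (abs_add_le _ _).trans (add_le_add (hQ _ (mem_Dcl_succ.2 (Or.inl rfl)))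
        ((abs_sum_le_sum_abs _ _).trans (sum_le_sum fun τ hτ => (h𝒯 τ hτ).1)))
    · rcases mem_insert.1 hT' with rfl | h
      · obtain ⟨x, hx⟩ := hne
        exact ⟨subset_rfl, ha, ⟨x, hx, hT x hx⟩, 0, Nat.le_add_right _ _,
          by simpa using card_pos.2 ⟨x, hx⟩⟩
      · obtain ⟨τ, hτ, h1⟩ := mem_biUnion.1 h
        obtain ⟨b1, b2, ⟨x, b3, b4⟩, d, b5, b6⟩ := (h𝒯 τ hτ).2 T h1
        have b7 := card_union_le T0 τ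
        have b8 := (mem_Pat.1 ((hR τ).1 hτ).1).2
        refine ⟨subset_union_left.trans b1, b2, ⟨x, (mem_br.1 b3).1, b4⟩, d + 1, ?_, ?_⟩
        · rw [mul_add, mul_one]
          omega
        · rw [pow_succ]
          exact (Nat.mul_le_mul_right _ b6).trans (br_Dec1 ((hR τ).1 hτ).2).le

end Vale.Agent.P336
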