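import Vale.Agent.P336.Core

/-!
Counting small subsets.
`card_small_le`: induction on `w` (a set of size at most `w + 1` is empty or `insert x T` with
`x ∈ S`, `T ⊆ S` of size at most `w`), or map `Fin w → Option S` onto the small sets.
`card_small_exp`: with `t = 1/256`, `count * t^m ≤ ∑_{T ⊆ S} t^|T| = (1 + t)^|S|`
(`Finset.prod_one_add` or `Finset.sum_pow_of_commute`), `(257/256)^128 ≤ 2`, `256^m = 2^(8 m)`.
`decay`: `(1 - 1/Θ)^Θ ≤ exp (-1) < 1/2` (`Real.one_sub_le_exp_neg` style, `Real.exp_one_gt_d9`), or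
Bernoulli `(1 + 1/(Θ-1))^Θ ≥ 2`.
-/

namespace Vale.Agent.P336

open Finset

theorem card_small_le {Y : Type} [DecidableEq Y] (S : Finset Y) (w : ℕ) :
    (S.powerset.filter fun T => T.card ≤ w).card ≤ (S.card + 1) ^ w := by
  induction w with
  | zero =>
    rw [pow_zero, card_le_one]
    intro a ha b hb
    rw [card_eq_zero.1 (Nat.le_zero.1 (mem_filter.1 ha).2),
      card_eq_zero.1 (Nat.le_zero.1 (mem_filter.1 hb).2)]
  | succ w ih =>
    have h : (S.powerset.filter fun T => T.card ≤ w + 1) ⊆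
        (S.biUnion fun x => (S.powerset.filter fun T => T.card ≤ w).image (insert x)) ∪
          S.powerset.filter fun T => T.card ≤ w := by
      intro T hT
      rw [mem_filter, mem_powerset] at hT
      rcases T.eq_empty_or_nonempty with rfl | ⟨x, hx⟩
      · exact mem_union_right _ (by simp)
      · refine mem_union_left _ (mem_biUnion.2 ⟨x, hT.1 hx, mem_image.2 ⟨T.erase x,
          mem_filter.2 ⟨mem_powerset.2 ((erase_subset _ _).trans hT.1), ?_⟩, insert_erase hx⟩⟩)
        rw [card_erase_of_mem hx]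
        omega
    refine (card_le_card h).trans ((card_union_le _ _).trans ?_)
    rw [pow_succ', add_mul, one_mul]
    exact add_le_add (card_biUnion_le_card_mul _ _ _ fun x _ => card_image_le.trans ih) ih

theorem card_small_exp {Y : Type} [DecidableEq Y] (S : Finset Y) (m : ℕ) (hS : S.card ≤ 512 * m) :
    (S.powerset.filter fun T => T.card ≤ m).card ≤ 2 ^ (12 * m) := by
  have h1 : ((S.powerset.filter fun T => T.card ≤ m).card : ℝ) * (1 / 256) ^ m ≤
      (1 + 1 / 256) ^ S.card := by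
    rw [← prod_const (b := (1 + 1 / 256 : ℝ)), prod_one_add, ← nsmul_eq_mul, ← sum_const]
    refine (sum_le_sum fun T hT => ?_).trans
      (sum_le_sum_of_subset_of_nonneg (filter_subset _ _) fun T _ _ => by positivity)
    rw [prod_const]
    exact pow_le_pow_of_le_one (by norm_num) (by norm_num) (mem_filter.1 hT).2
  have h2 : (1 + 1 / 256 : ℝ) ^ S.card ≤ 2 ^ (4 * m) := by
    refine (pow_le_pow_right₀ (by norm_num) hS).trans ?_
    rw [show 512 * m = 128 * (4 * m) by ring, pow_mul]
    exact pow_le_pow_left₀ (by positivity) (by norm_num) _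
  have h3 : (2 : ℝ) ^ (12 * m) * (1 / 256) ^ m = 2 ^ (4 * m) := by
    rw [pow_mul, pow_mul, ← mul_pow]
    norm_num
  have h4 := h1.trans (h2.trans h3.ge)
  exact_mod_cast le_of_mul_le_mul_right h4 (by positivity)

theorem decay {Θ : ℕ} (hΘ : 2 ≤ Θ) (u : ℕ) :
    (2 : ℝ) ^ u * (1 - 1 / (Θ : ℝ)) ^ (Θ * (u + 1)) < 1 := by
  have h0 : (2 : ℝ) ≤ Θ := by exact_mod_cast hΘ
  have h1 : (1 - 1 / (Θ : ℝ)) ^ Θ ≤ 1 / 2 := by
    refine (Real.one_sub_div_pow_le_exp_neg (t := 1) (by linarith)).trans ?_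
    rw [Real.exp_neg, one_div]
    exact inv_anti₀ two_pos (by linarith [Real.add_one_le_exp 1])
  have h2 : 0 ≤ 1 - 1 / (Θ : ℝ) := by
    rw [sub_nonneg, div_le_one (by linarith)]
    linarith
  rw [pow_mul]
  refine (mul_le_mul_of_nonneg_left (pow_le_pow_left₀ (by positivity) h1 _) (by positivity)).trans_lt ?_
  rw [pow_succ, ← mul_assoc, ← mul_pow]
  norm_num

end Vale.Agent.P336
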