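import Vale.Agent.P336.Dec1
import Vale.Agent.P336.Small

/-!
DEC packaging. `card_Dcl`, `Dcl_subset`: induction on `j` (`card_insert_le`, `card_biUnion_le`,
`card_union_le`; `1 + 2 p q ≤ (2 p + 1) q` for `q ≥ 1`). `pat_of_clo`: take the term
`(K ∩ a).image fun i => (i, x i)`; points of `fib y a` agree outside `a`.
`dec`: `𝒟 = Dcl (Pat a w) Θ (Θ * (|a| + 1)) (fib y a)` with `Θ = 2 ^ (256 w)`,
`|Pat a w| ≤ (2 |a| + 1)^w` (`card_small_le`), monotonicity in `|a| ≤ 256 m`. For a closed `A`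
apply `dec_ind` with `Y = fib y a`, `T0 = ∅` (`decay`, `card_fib`); a tag has
`2 ^ (256 w d) ≤ 2 ^ |a| ≤ 2 ^ (256 m)`, so `|T| ≤ w d ≤ m`, and `𝒯` lies in the family counted by
`card_small_exp` for `S = a ×ˢ univ`; `A ∩ fib y a = A`.
-/

namespace Vale.Agent.P336

open Finset

variable {X : Type} [Fintype X] [DecidableEq X]

theorem card_Dcl (P : Finset (Term X)) (Θ j : ℕ) :
    ∀ Y : Finset (X → Bool), (Dcl P Θ j Y).card ≤ (2 * P.card + 1) ^ j := by
  induction j with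
  | zero => intro Y; simp [Dcl]
  | succ j ih =>
    intro Y
    rw [Dcl]
    have h1 : (P.biUnion fun τ => Dcl P Θ j (del Y τ) ∪ Dcl P Θ j (br P Θ Y τ)).card ≤
        P.card * (2 * (2 * P.card + 1) ^ j) := by
      refine card_biUnion_le.trans (sum_le_card_nsmul _ _ _ fun τ _ => ?_)
      have := ih (del Y τ)
      have := ih (br P Θ Y τ)
      exact (card_union_le _ _).trans (by omega)
    have h2 : 1 ≤ (2 * P.card + 1) ^ j := Nat.one_le_pow _ _ (by omega)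
    refine (card_insert_le _ _).trans ?_
    rw [pow_succ]
    nlinarith

theorem Dcl_subset (P : Finset (Term X)) (Θ j : ℕ) :
    ∀ Y : Finset (X → Bool), ∀ Q ∈ Dcl P Θ j Y, Q ⊆ Y := by
  induction j with
  | zero => intro Y Q hQ; simp [Dcl] at hQ
  | succ j ih =>
    intro Y Q hQ
    rcases mem_Dcl_succ.1 hQ with rfl | ⟨τ, -, h | h⟩
    · exact fun x hx => (mem_leaf.1 hx).1
    · exact fun x hx => (mem_del.1 (ih _ Q h hx)).1
    · exact fun x hx => (mem_br.1 (ih _ Q h hx)).1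

theorem pat_of_clo {w : ℕ} {y : X → Bool} {a : Finset X} {A : Finset (X → Bool)}
    (hA : Clo w (fib y a) A) :
    ∀ x ∈ fib y a, x ∉ A → ∃ τ ∈ Pat a w, mt x τ ∧ ∀ x' ∈ A, ¬ mt x' τ := by
  intro x hx hxA
  obtain ⟨K, hK, hK'⟩ := hA.2 x hx hxA
  refine ⟨(K ∩ a).image fun i => (i, x i), mem_Pat.2 ⟨fun l hl => ?_, ?_⟩, fun l hl => ?_,
    fun x' hx' h => hK' x' hx' fun i hi => ?_⟩
  · obtain ⟨i, hi, rfl⟩ := mem_image.1 hl
    exact (mem_inter.1 hi).2
  · exact card_image_le.trans ((card_le_card inter_subset_left).trans hK)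
  · obtain ⟨i, -, rfl⟩ := mem_image.1 hl
    rfl
  · by_cases hia : i ∈ a
    · exact h (i, x i) (mem_image_of_mem _ (mem_inter.2 ⟨hi, hia⟩))
    · rw [mem_fib.1 (hA.1 hx') i hia, mem_fib.1 hx i hia]

theorem dec (y : X → Bool) (a : Finset X) {w m : ℕ} (hw : 1 ≤ w) (ha : a.card ≤ 256 * m) :
    ∃ 𝒟 : Finset (Finset (X → Bool)),
      𝒟.card ≤ (2 * (2 * (256 * m) + 1) ^ w + 1) ^ (2 ^ (256 * w) * (256 * m + 1)) ∧
      (∀ Q ∈ 𝒟, Q ⊆ fib y a) ∧
      ∀ (F : (X → Bool) → ℝ) (E0 : ℝ), 0 ≤ E0 → (∀ Q ∈ 𝒟, |∑ x ∈ Q, F x| ≤ E0) →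
        COR F w y a (2 ^ (12 * m) * E0) := by
  have hS : (a ×ˢ (univ : Finset Bool)).card = 2 * a.card := by simp [mul_comm]
  have hΘ : 2 ≤ 2 ^ (256 * w) := by
    calc 2 = 2 ^ 1 := rfl
      _ ≤ 2 ^ (256 * w) := Nat.pow_le_pow_right (by norm_num) (by omega)
  refine ⟨Dcl (Pat a w) (2 ^ (256 * w)) (2 ^ (256 * w) * (a.card + 1)) (fib y a), ?_,
    Dcl_subset _ _ _ _, fun F E0 hE hD A hA => ?_⟩
  · have h1 : (Pat a w).card ≤ (2 * (256 * m) + 1) ^ w := by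
      refine (card_small_le _ w).trans (Nat.pow_le_pow_left ?_ _)
      omega
    refine (card_Dcl _ _ _ _).trans ((Nat.pow_le_pow_left (by omega) _).trans
      (Nat.pow_le_pow_right (by omega) (Nat.mul_le_mul_left _ (by omega))))
  · obtain ⟨𝒯, h1, h2⟩ := dec_ind hΘ (pat_of_clo hA) hE (2 ^ (256 * w) * (a.card + 1)) (fib y a) ∅
      Subset.rfl (fun x _ l hl => absurd hl (notMem_empty l)) (fun l hl => absurd hl (notMem_empty l))
      (by rw [card_fib, Nat.cast_pow, Nat.cast_ofNat]; exact decay hΘ a.card) hD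
    rw [inter_eq_left.2 hA.1] at h1
    have h3 : 𝒯 ⊆ (a ×ˢ (univ : Finset Bool)).powerset.filter fun T => T.card ≤ m := by
      intro T hT
      obtain ⟨-, h4, -, d, h5, h6⟩ := h2 T hT
      rw [card_fib, ← pow_mul, Nat.pow_le_pow_iff_right (by norm_num), mul_assoc] at h6
      rw [card_empty] at h5
      exact mem_filter.2 ⟨mem_powerset.2 fun l hl => mem_product.2 ⟨h4 l hl, mem_univ _⟩, by omega⟩
    have h4 : 𝒯.card ≤ 2 ^ (12 * m) := (card_le_card h3).trans (card_small_exp _ m (by omega))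
    rw [mul_comm]
    exact h1.trans (mul_le_mul_of_nonneg_left (by exact_mod_cast h4) hE)

end Vale.Agent.P336
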