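import Vale.Agent.P336.Core

/-! The container class of the decomposition. -/

namespace Vale.Agent.P336

open Finset

variable {X : Type} [Fintype X] [DecidableEq X]

/-- patterns: terms with at most `w` literals on the variables `a` -/
def Pat (a : Finset X) (w : ℕ) : Finset (Term X) :=
  (a ×ˢ (univ : Finset Bool)).powerset.filter fun τ => τ.card ≤ w

/-- `τ` is rare in `Y` -/
def rare (Θ : ℕ) (Y : Finset (X → Bool)) (τ : Term X) : Prop := (cyl Y τ).card * Θ < Y.card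

open Classical in
/-- delete the points matching `τ` -/
noncomputable def del (Y : Finset (X → Bool)) (τ : Term X) : Finset (X → Bool) :=
  Y.filter fun x => ¬ mt x τ

open Classical in
/-- the points whose first rare pattern is `τ` -/
noncomputable def br (P : Finset (Term X)) (Θ : ℕ) (Y : Finset (X → Bool)) (τ : Term X) :
    Finset (X → Bool) :=
  Y.filter fun x => mt x τ ∧ ∀ τ' ∈ P, rk τ' < rk τ → rare Θ Y τ' → ¬ mt x τ'

open Classical in
/-- the points without a rare pattern -/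
noncomputable def leaf (P : Finset (Term X)) (Θ : ℕ) (Y : Finset (X → Bool)) : Finset (X → Bool) :=
  Y.filter fun x => ∀ τ ∈ P, rare Θ Y τ → ¬ mt x τ

/-- all leaves reachable in fewer than `j` steps -/
noncomputable def Dcl (P : Finset (Term X)) (Θ : ℕ) :
    ℕ → Finset (X → Bool) → Finset (Finset (X → Bool))
  | 0, _ => ∅
  | j + 1, Y => insert (leaf P Θ Y)
      (P.biUnion fun τ => Dcl P Θ j (del Y τ) ∪ Dcl P Θ j (br P Θ Y τ))

theorem mem_Pat {a : Finset X} {w : ℕ} {τ : Term X} :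
    τ ∈ Pat a w ↔ (∀ l ∈ τ, l.1 ∈ a) ∧ τ.card ≤ w := by
  simp [Pat, subset_iff]

theorem mem_del {Y : Finset (X → Bool)} {τ : Term X} {x : X → Bool} :
    x ∈ del Y τ ↔ x ∈ Y ∧ ¬ mt x τ := by
  simp [del]

theorem mem_br {P : Finset (Term X)} {Θ : ℕ} {Y : Finset (X → Bool)} {τ : Term X} {x : X → Bool} :
    x ∈ br P Θ Y τ ↔ x ∈ Y ∧ mt x τ ∧ ∀ τ' ∈ P, rk τ' < rk τ → rare Θ Y τ' → ¬ mt x τ' := by
  simp [br]

theorem mem_leaf {P : Finset (Term X)} {Θ : ℕ} {Y : Finset (X → Bool)} {x : X → Bool} :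
    x ∈ leaf P Θ Y ↔ x ∈ Y ∧ ∀ τ ∈ P, rare Θ Y τ → ¬ mt x τ := by
  simp [leaf]

theorem mem_Dcl_succ {P : Finset (Term X)} {Θ j : ℕ} {Y Q : Finset (X → Bool)} :
    Q ∈ Dcl P Θ (j + 1) Y ↔
      Q = leaf P Θ Y ∨ ∃ τ ∈ P, Q ∈ Dcl P Θ j (del Y τ) ∨ Q ∈ Dcl P Θ j (br P Θ Y τ) := by
  simp [Dcl]

end Vale.Agent.P336
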