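import Mathlib

/-! Depth-three OR-AND-OR circuits. -/

namespace Vale.Agent.P336

/-- An OR-AND-OR circuit on `n` variables: `nb` bottom OR gates, `nm` middle AND gates and one top
OR gate. Bottom gate `i` reads the literals in `bot i` (the literal `(t, true)` is `x t`, the
literal `(t, false)` is its negation) and the constant `cst i`; middle gate `j` reads the bottom
gates in `mid j`; the top gate reads the middle gates in `top`. -/
structure Circ (n : ℕ) where
  nb : ℕ
  nm : ℕ
  bot : Fin nb → Finset (Fin n × Bool)
  cst : Fin nb → Bool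
  mid : Fin nm → Finset (Fin nb)
  top : Finset (Fin nm)

/-- The circuit outputs 1 on the input `x`. -/
def Circ.Accepts {n : ℕ} (C : Circ n) (x : Fin n → Bool) : Prop :=
  ∃ j ∈ C.top, ∀ i ∈ C.mid j, C.cst i = true ∨ ∃ l ∈ C.bot i, x l.1 = l.2

/-- The total number of gates. -/
def Circ.size {n : ℕ} (C : Circ n) : ℕ := C.nb + C.nm + 1

end Vale.Agent.P336
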