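import Mathlib

/-! The hard language: xor of table lookups at addresses made of bucket parities. -/

namespace Vale.Agent.P336

/-- parity of bucket `j` of group `i` -/
def parG (g : ℕ → Bool) (l B i j : ℕ) : Bool :=
  (List.range B).foldl (fun acc b => xor acc (g ((i * l + j) * B + b))) false

/-- the number with leading part `i` followed by the bits `v 0, ..., v (l - 1)` -/
def code (i : ℕ) (v : ℕ → Bool) (l : ℕ) : ℕ :=
  (List.range l).foldl (fun acc j => Nat.bit (v j) acc) i

/-- xor of the table entries -/
def langG (g : ℕ → Bool) (c l B : ℕ) : Bool :=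
  (List.range c).foldl (fun acc i => xor acc (g (c * l * B + code i (parG g l B i) l))) false

def pp (n : ℕ) : ℕ := Nat.size n / 65536
def ll (n : ℕ) : ℕ := 16384 * pp n
def BB (n : ℕ) : ℕ := Nat.sqrt (n / (8 * pp n))
def cc (n : ℕ) : ℕ := BB n / 4096
def mm (n : ℕ) : ℕ := 64 * (cc n * pp n)

/-- the language -/
def lang (x : List Bool) : Bool :=
  langG (fun t => x.getD t false) (cc x.length) (ll x.length) (BB x.length)

end Vale.Agent.P336
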