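import Vale.Agent.P336.Win
import Vale.Agent.P336.Lang

/-!
Embedding of the pair (point, seed) into the input string.
`code_succ`: `List.range_succ`, `List.foldl_append`. `code_lt`, `code_inj`: induction on `l`
(`Nat.bit_val`; `Nat.bit b n = Nat.bit b' n'` gives `b = b'` and `n = n'`).
`emb`: `e1 z = (z.1.1 * l + z.1.2) * B + z.2 < c * l * B` is injective;
`e2 (i, v) = c * l * B + code i (fun j => if h : j < l then v ⟨j, h⟩ else false) l` is injective,
at least `c * l * B` and below `n`. Put (classically)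
`g x t = if h : ∃ z, e1 z = t then x h.choose else if h : ∃ r, e2 r = t then s h.choose else false`,
`e x t = g x t.val`. Then `(List.ofFn (e x)).getD t false = g x t` for `t < n`, `g x (e1 z) = x z`,
`g x (e2 r) = s r`, `parG .. i j = chr i x j` for `i < c`, `j < l` (compare signs: `sgn_fold_range`,
`sgn_par`, `sgn_inj`, `Finset.prod_range`), `code` only depends on the bits below `l`
(`code_congr`), and `sgn_fold_range` finishes.
-/

namespace Vale.Agent.P336

open Finset

theorem code_succ (i : ℕ) (v : ℕ → Bool) (l : ℕ) :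
    code i v (l + 1) = Nat.bit (v l) (code i v l) := by
  simp only [code, List.range_succ, List.foldl_append, List.foldl_cons, List.foldl_nil]

theorem code_lt (i : ℕ) (v : ℕ → Bool) (l : ℕ) : code i v l < (i + 1) * 2 ^ l := by
  induction l with
  | zero => simp [code]
  | succ l ih =>
    rw [code_succ, Nat.bit_val, pow_succ, ← mul_assoc]
    have : (v l).toNat ≤ 1 := Bool.toNat_le _
    omega

theorem code_congr (i : ℕ) {v v' : ℕ → Bool} (l : ℕ) (h : ∀ j < l, v j = v' j) :
    code i v l = code i v' l := by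
  induction l with
  | zero => simp [code]
  | succ l ih =>
    rw [code_succ, code_succ, h l (Nat.lt_succ_self l), ih fun j hj => h j (Nat.lt_succ_of_lt hj)]

theorem code_inj {i i' : ℕ} {v v' : ℕ → Bool} (l : ℕ) (h : code i v l = code i' v' l) :
    i = i' ∧ ∀ j < l, v j = v' j := by
  induction l with
  | zero => exact ⟨by simpa [code] using h, fun j hj => absurd hj (Nat.not_lt_zero j)⟩
  | succ l ih =>
    rw [code_succ, code_succ, Nat.bit_val, Nat.bit_val] at h
    have h1 : (v l).toNat ≤ 1 := Bool.toNat_le _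
    have h2 : (v' l).toNat ≤ 1 := Bool.toNat_le _
    have h3 : code i v l = code i' v' l := by omega
    have h4 : (v l).toNat = (v' l).toNat := by omega
    have h5 : v l = v' l := by
      revert h4
      cases v l <;> cases v' l <;> simp
    refine ⟨(ih h3).1, fun j hj => ?_⟩
    rcases Nat.lt_succ_iff_lt_or_eq.mp hj with h6 | h6
    · exact (ih h3).2 j h6
    · rw [h6]; exact h5

theorem sgn_fold_range (g : ℕ → Bool) (k : ℕ) :
    sgn ((List.range k).foldl (fun acc b => xor acc (g b)) false) = ∏ b : Fin k, sgn (g b) := by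
  induction k with
  | zero => simp [sgn]
  | succ k ih =>
    rw [List.range_succ, List.foldl_append, List.foldl_cons, List.foldl_nil, sgn_xor, ih,
      Fin.prod_univ_castSucc]
    simp

def e1_Emb {c l B : ℕ} (z : Var c l B) : ℕ := (z.1.1.val * l + z.1.2.val) * B + z.2.val

def e2_Emb {c l : ℕ} (B : ℕ) (r : Fin c × (Fin l → Bool)) : ℕ :=
  c * l * B + code r.1.val (fun j => if h : j < l then r.2 ⟨j, h⟩ else false) l

lemma pair_lt_Emb {a b A B : ℕ} (ha : a < A) (hb : b < B) : a * B + b < A * B := by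
  have : (a + 1) * B ≤ A * B := Nat.mul_le_mul_right _ ha
  rw [add_mul, one_mul] at this
  omega

lemma pair_inj_Emb {a b a' b' B : ℕ} (hb : b < B) (hb' : b' < B) (h : a * B + b = a' * B + b') :
    a = a' ∧ b = b' := by
  have h1 : (a * B + b) / B = (a' * B + b') / B := by rw [h]
  have hB : 0 < B := by omega
  rw [mul_comm a, mul_comm a', Nat.mul_add_div hB, Nat.mul_add_div hB, Nat.div_eq_of_lt hb,
    Nat.div_eq_of_lt hb'] at h1
  have h2 : a = a' := by omega
  subst h2
  exact ⟨rfl, by omega⟩

lemma e1_lt_Emb {c l B : ℕ} (z : Var c l B) : e1_Emb z < c * l * B :=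
  pair_lt_Emb (pair_lt_Emb z.1.1.2 z.1.2.2) z.2.2

lemma e1_inj_Emb {c l B : ℕ} {z z' : Var c l B} (h : e1_Emb z = e1_Emb z') : z = z' := by
  obtain ⟨h1, h2⟩ := pair_inj_Emb z.2.2 z'.2.2 h
  obtain ⟨h3, h4⟩ := pair_inj_Emb z.1.2.2 z'.1.2.2 h1
  exact Prod.ext (Prod.ext (Fin.ext h3) (Fin.ext h4)) (Fin.ext h2)

lemma e2_lt_Emb {c l : ℕ} (B : ℕ) (r : Fin c × (Fin l → Bool)) :
    e2_Emb B r < c * l * B + c * 2 ^ l := by
  have h1 := code_lt r.1.val (fun j => if h : j < l then r.2 ⟨j, h⟩ else false) l
  have h2 : (r.1.val + 1) * 2 ^ l ≤ c * 2 ^ l := Nat.mul_le_mul_right _ r.1.2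
  unfold e2_Emb
  omega

lemma e2_inj_Emb {c l B : ℕ} {r r' : Fin c × (Fin l → Bool)} (h : e2_Emb B r = e2_Emb B r') :
    r = r' := by
  unfold e2_Emb at h
  obtain ⟨h1, h2⟩ := code_inj l (Nat.add_left_cancel h)
  refine Prod.ext (Fin.ext h1) (funext fun j => ?_)
  have := h2 j.val j.2
  rwa [dif_pos j.2, dif_pos j.2] at this

theorem emb {n c l B : ℕ} (hn : c * l * B + c * 2 ^ l ≤ n) (s : Fin c × (Fin l → Bool) → Bool) :
    ∃ e : (Var c l B → Bool) → Fin n → Bool,
      (∀ t, (∃ z, ∀ x, e x t = x z) ∨ ∃ b, ∀ x, e x t = b) ∧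
      ∀ x, sgn (langG (fun t => (List.ofFn (e x)).getD t false) c l B) = Fs chr s x := by
  classical
  let g : (Var c l B → Bool) → ℕ → Bool := fun x t =>
    if h : ∃ z : Var c l B, e1_Emb z = t then x h.choose
    else if h : ∃ r : Fin c × (Fin l → Bool), e2_Emb B r = t then s h.choose else false
  have g1 : ∀ x (z : Var c l B), g x (e1_Emb z) = x z := by
    intro x z
    have h : ∃ z' : Var c l B, e1_Emb z' = e1_Emb z := ⟨z, rfl⟩
    simp only [g]
    rw [dif_pos h, e1_inj_Emb h.choose_spec]
  have g2 : ∀ x (r : Fin c × (Fin l → Bool)), g x (e2_Emb B r) = s r := by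
    intro x r
    have h0 : ¬ ∃ z' : Var c l B, e1_Emb z' = e2_Emb B r := by
      rintro ⟨z, hz⟩
      have := e1_lt_Emb z
      unfold e2_Emb at hz
      omega
    have h : ∃ r' : Fin c × (Fin l → Bool), e2_Emb B r' = e2_Emb B r := ⟨r, rfl⟩
    simp only [g]
    rw [dif_neg h0, dif_pos h, e2_inj_Emb h.choose_spec]
  have hg : ∀ x t, t < n → (List.ofFn fun t : Fin n => g x t.val).getD t false = g x t := by
    intro x t ht
    rw [List.getD_eq_getElem _ _ (by simpa using ht)]
    simp
  refine ⟨fun x t => g x t.val, fun t => ?_, fun x => ?_⟩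
  · by_cases h : ∃ z : Var c l B, e1_Emb z = t.val
    · exact Or.inl ⟨h.choose, fun x => by simp only [g]; rw [dif_pos h]⟩
    · exact Or.inr ⟨g (fun _ => false) t.val, fun x => by simp only [g]; rw [dif_neg h, dif_neg h]⟩
  · unfold langG Fs
    rw [sgn_fold_range (fun i => (List.ofFn fun t : Fin n => g x t.val).getD
      (c * l * B + code i (parG (fun t => (List.ofFn fun t : Fin n => g x t.val).getD t false)
        l B i) l) false) c]
    refine Finset.prod_congr rfl fun i _ => ?_
    have hp : ∀ j < l, parG (fun t => (List.ofFn fun t : Fin n => g x t.val).getD t false)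
        l B i j = if h : j < l then chr i x ⟨j, h⟩ else false := by
      intro j hj
      rw [dif_pos hj, ← sgn_inj]
      unfold parG chr
      rw [sgn_fold_range (fun b => (List.ofFn fun t : Fin n => g x t.val).getD
        ((i.val * l + j) * B + b) false) B, sgn_par]
      refine Finset.prod_congr rfl fun b _ => ?_
      have h1 := e1_lt_Emb (((i, ⟨j, hj⟩), b) : Var c l B)
      have h2 := g1 x ((i, ⟨j, hj⟩), b)
      unfold e1_Emb at h1 h2
      rw [hg x _ (by simp only at h1; omega)]
      exact congrArg sgn h2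
    rw [code_congr i.val l hp]
    have h3 := e2_lt_Emb B ((i, chr i x) : Fin c × (Fin l → Bool))
    have h4 := g2 x (i, chr i x)
    unfold e2_Emb at h3 h4
    rw [hg x _ (by simp only at h3; omega)]
    exact congrArg sgn h4

end Vale.Agent.P336
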