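import Vale.Agent.P336.Core

/-!
EXP: the signed inclusion-exclusion expansion. Induction on `j`, generalizing `i a y A`.
* `j = 0`: `i = 0`, `noM C 0 A = A`, `|∑_A F| ≤ E` by `hC`, and `∑_{fib y a} (1/2)^|a| = 1`
  (`card_fib`).
* `j + 1`: let `Nar = {x ∈ A | ∀ τ ∈ C, rk τ < i → (a ∩ supp τ).card ≤ w → ¬ mt x τ}`.
  `Nar` is `Clo w (fib y0 a0)`: for `x ∉ A` use the `K` of `A`; for `x ∈ A` matching a narrow `τ`
  use `K = a ∩ supp τ` (points of `A ⊆ fib y a` agree outside `a`; `mt_congr`). So `|∑_Nar F| ≤ E`.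
  With `W = {τ ∈ C | rk τ < i ∧ w < (a ∩ supp τ).card}`, `Nar` is the disjoint union of
  `noM C i A` and the sets `Z τ = noM C (rk τ) (cyl Nar τ)`, `τ ∈ W` (take the matched term of
  least rank; `rk_inj`). Hence `∑_{noM C i A} F = ∑_Nar F - ∑_{τ ∈ W} ∑_{Z τ} F`.
  Claim for `τ ∈ W`: `|∑_{Z τ} F| ≤ E * ∑ y' ∈ fib y a with τ ∈ steps C w y' a, gw C w j y' (a \ supp τ)`.
  If `Z τ` is empty use `gw_nonneg`. Otherwise take `x ∈ Z τ` and apply the induction hypothesis to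
  `(rk τ, a \ supp τ, x, cyl Nar τ)`: `cyl Nar τ ⊆ fib x (a \ supp τ)` (`mt_agree`), it is closed
  (for a point of `Nar` violating a literal `l` of `τ` take `K = {l.1}`, `1 ≤ w`), and
  `fib x (a \ supp τ) ⊆ {y' ∈ fib y a | τ ∈ steps C w y' a}` because `y'` agrees with `x` outside
  `a \ supp τ` and `x` matches no term of rank below `rk τ`.
  Finally swap the sums (`sum_comm` with indicator, or `sum_comm'`), `W`-terms are a subset of
  `steps C w y' a`, and unfold `gw`.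
-/

namespace Vale.Agent.P336

open Finset

variable {X : Type} [Fintype X] [DecidableEq X]

theorem half_Exp (y : X → Bool) (a : Finset X) : ∑ _y' ∈ fib y a, (1 / 2 : ℝ) ^ a.card = 1 := by
  rw [sum_const, card_fib, nsmul_eq_mul]
  push_cast
  rw [← mul_pow]
  norm_num

open Classical in
/-- points of `A` that match no narrow term of rank below `i` -/
noncomputable def nar_Exp (C : Finset (Term X)) (w i : ℕ) (a : Finset X)
    (A : Finset (X → Bool)) : Finset (X → Bool) :=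
  A.filter fun x => ∀ τ ∈ C, rk τ < i → (a ∩ supp τ).card ≤ w → ¬ mt x τ

theorem mem_nar_Exp {C : Finset (Term X)} {w i : ℕ} {a : Finset X}
    {A : Finset (X → Bool)} {x : X → Bool} : x ∈ nar_Exp C w i a A ↔
      x ∈ A ∧ ∀ τ ∈ C, rk τ < i → (a ∩ supp τ).card ≤ w → ¬ mt x τ := by
  simp only [nar_Exp, mem_filter]

theorem clo_nar_Exp (C : Finset (Term X)) {w : ℕ} (i : ℕ) {a : Finset X} {y : X → Bool}
    {A Φ : Finset (X → Bool)} (hA : A ⊆ fib y a) (h : Clo w Φ A) :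
    Clo w Φ (nar_Exp C w i a A) := by
  refine ⟨fun x hx => h.1 (mem_nar_Exp.1 hx).1, fun x hx hn => ?_⟩
  by_cases hxA : x ∈ A
  · rw [mem_nar_Exp] at hn
    push Not at hn
    obtain ⟨τ, h1, h2, h3, h4⟩ := hn hxA
    refine ⟨a ∩ supp τ, h3, fun x' hx' k => ?_⟩
    obtain ⟨b1, b2⟩ := mem_nar_Exp.1 hx'
    refine b2 τ h1 h2 h3 ((mt_congr fun l hl => ?_).2 h4)
    by_cases hl' : l ∈ a
    · exact k l (mem_inter.2 ⟨hl', hl⟩)
    · exact (mem_fib.1 (hA b1) l hl').trans (mem_fib.1 (hA hxA) l hl').symm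
  · obtain ⟨K, h1, h2⟩ := h.2 x hx hxA
    exact ⟨K, h1, fun x' hx' => h2 x' (mem_nar_Exp.1 hx').1⟩

theorem clo_cyl_Exp {w : ℕ} (hw : 1 ≤ w) {A Φ : Finset (X → Bool)} (h : Clo w Φ A) (τ : Term X) :
    Clo w Φ (cyl A τ) := by
  refine ⟨fun x hx => h.1 (mem_cyl.1 hx).1, fun x hx hn => ?_⟩
  by_cases hxA : x ∈ A
  · have h1 : ¬ mt x τ := fun k => hn (mem_cyl.2 ⟨hxA, k⟩)
    rw [mt] at h1
    push Not at h1
    obtain ⟨l, h2, h3⟩ := h1
    refine ⟨{l.1}, by rwa [card_singleton], fun x' hx' k => h3 ?_⟩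
    exact (k _ (mem_singleton_self _)).symm.trans ((mem_cyl.1 hx').2 l h2)
  · obtain ⟨K, h1, h2⟩ := h.2 x hx hxA
    exact ⟨K, h1, fun x' hx' => h2 x' (mem_cyl.1 hx').1⟩

theorem split_Exp (C : Finset (Term X)) (w i : ℕ) (a : Finset X) (A : Finset (X → Bool))
    (F : (X → Bool) → ℝ) :
    ∑ x ∈ noM C i A, F x = ∑ x ∈ nar_Exp C w i a A, F x -
      ∑ τ ∈ C with rk τ < i ∧ w < (a ∩ supp τ).card,
        ∑ x ∈ noM C (rk τ) (cyl (nar_Exp C w i a A) τ), F x := by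
  classical
  rw [eq_sub_iff_add_eq, ← sum_biUnion, ← sum_union]
  · refine sum_congr ?_ fun _ _ => rfl
    ext x
    simp only [mem_union, mem_biUnion, mem_noM, mem_cyl, mem_filter]
    constructor
    · rintro (⟨h1, h2⟩ | ⟨τ, -, h, -⟩)
      · exact mem_nar_Exp.2 ⟨h1, fun τ k1 k2 _ => h2 τ k1 k2⟩
      · exact h.1
    · intro hx
      by_cases h : ∀ τ ∈ C, rk τ < i → ¬ mt x τ
      · exact Or.inl ⟨(mem_nar_Exp.1 hx).1, h⟩
      · push Not at h
        obtain ⟨τ0, k1, k2, k3⟩ := h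
        obtain ⟨τ, b1, b2⟩ := exists_min_image (C.filter fun τ => mt x τ) rk
          ⟨τ0, mem_filter.2 ⟨k1, k3⟩⟩
        obtain ⟨b3, b4⟩ := mem_filter.1 b1
        have b5 : rk τ < i := (b2 τ0 (mem_filter.2 ⟨k1, k3⟩)).trans_lt k2
        refine Or.inr ⟨τ, ⟨b3, b5, not_le.1 fun k => (mem_nar_Exp.1 hx).2 τ b3 b5 k b4⟩,
          ⟨hx, b4⟩, fun τ' c1 c2 c3 => ?_⟩
        exact (b2 τ' (mem_filter.2 ⟨c1, c3⟩)).not_gt c2
  · refine disjoint_left.2 fun x h1 h2 => ?_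
    obtain ⟨τ, b1, b2⟩ := mem_biUnion.1 h2
    obtain ⟨b3, b4, -⟩ := mem_filter.1 b1
    exact (mem_noM.1 h1).2 τ b3 b4 (mem_cyl.1 (mem_noM.1 b2).1).2
  · intro τ h1 τ' h2 hne
    refine disjoint_left.2 fun x b1 b2 => hne (rk_inj ?_)
    obtain ⟨c1, c2⟩ := mem_noM.1 b1
    obtain ⟨c3, c4⟩ := mem_noM.1 b2
    exact le_antisymm
      (not_lt.1 fun k => c2 τ' (mem_filter.1 (mem_coe.1 h2)).1 k (mem_cyl.1 c3).2)
      (not_lt.1 fun k => c4 τ (mem_filter.1 (mem_coe.1 h1)).1 k (mem_cyl.1 c1).2)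

theorem exp_bound (C : Finset (Term X)) {w : ℕ} (hw : 1 ≤ w) {F : (X → Bool) → ℝ} {y0 : X → Bool}
    {a0 : Finset X} {E : ℝ} (hE : 0 ≤ E) (hC : COR F w y0 a0 E) (j : ℕ) :
    ∀ (i : ℕ) (a : Finset X) (y : X → Bool) (A : Finset (X → Bool)), i ≤ j →
      A ⊆ fib y a → Clo w (fib y0 a0) A →
      |∑ x ∈ noM C i A, F x| ≤ E * ∑ y' ∈ fib y a, gw C w j y' a := by
  classical
  induction j with
  | zero =>
    intro i a y A hi _ h2
    obtain rfl : i = 0 := Nat.le_zero.1 hi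
    have e : noM C 0 A = A := by
      ext x
      simp [mem_noM]
    simp only [gw]
    rw [e, half_Exp, mul_one]
    exact hC A h2
  | succ j ih =>
    intro i a y A hi h1 h2
    have hN := clo_nar_Exp C i h1 h2
    have key : ∀ τ ∈ C.filter fun τ => rk τ < i ∧ w < (a ∩ supp τ).card,
        |∑ x ∈ noM C (rk τ) (cyl (nar_Exp C w i a A) τ), F x| ≤
          E * ∑ y' ∈ fib y a with τ ∈ steps C w y' a, gw C w j y' (a \ supp τ) := by
      intro τ hτ
      obtain ⟨b1, b2, b3⟩ := mem_filter.1 hτ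
      rcases (noM C (rk τ) (cyl (nar_Exp C w i a A) τ)).eq_empty_or_nonempty with e | ⟨x, hx⟩
      · rw [e, sum_empty, abs_zero]
        exact mul_nonneg hE (sum_nonneg fun _ _ => gw_nonneg _ _ _ _ _)
      obtain ⟨c1, c2⟩ := mem_noM.1 hx
      obtain ⟨c3, c4⟩ := mem_cyl.1 c1
      have c5 := mem_fib.1 (h1 (mem_nar_Exp.1 c3).1)
      refine (ih (rk τ) (a \ supp τ) x _ (by omega) (fun z hz => mem_fib.2 fun l hl => ?_)
        (clo_cyl_Exp hw hN τ)).trans (mul_le_mul_of_nonneg_left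
          (sum_le_sum_of_subset_of_nonneg (fun z hz => ?_) fun _ _ _ => gw_nonneg _ _ _ _ _) hE)
      · obtain ⟨d1, d2⟩ := mem_cyl.1 hz
        by_cases hl' : l ∈ a
        · exact mt_agree d2 c4 (not_not.1 fun k => hl (mem_sdiff.2 ⟨hl', k⟩))
        · exact (mem_fib.1 (h1 (mem_nar_Exp.1 d1).1) l hl').trans (c5 l hl').symm
      · have d1 := mem_fib.1 hz
        refine mem_filter.2 ⟨mem_fib.2 fun l hl => (d1 l fun k => hl (mem_sdiff.1 k).1).trans
          (c5 l hl), mem_steps.2 ⟨b1, b3, (mt_congr fun l hl => d1 l fun k =>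
            (mem_sdiff.1 k).2 hl).2 c4, disjoint_sdiff, fun τ' e1 e2 e3 k => c2 τ' e1 e2 ?_⟩⟩
        exact (mt_congr fun l hl => d1 l (disjoint_left.1 e3 hl)).1 k
    rw [split_Exp C w i a A F]
    refine (abs_sub _ _).trans ((add_le_add (hC _ hN) ((abs_sum_le_sum_abs _ _).trans
      (sum_le_sum key))).trans ?_)
    simp only [gw]
    rw [sum_add_distrib, half_Exp, mul_add, mul_one, ← mul_sum]
    refine add_le_add le_rfl (mul_le_mul_of_nonneg_left ?_ hE)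
    simp only [sum_filter (fun y' => _ ∈ steps C w y' a)]
    rw [sum_comm]
    refine sum_le_sum fun y' _ => ?_
    rw [← sum_filter]
    exact sum_le_sum_of_subset_of_nonneg (fun τ h => (mem_filter.1 h).2)
      fun _ _ _ => gw_nonneg _ _ _ _ _

end Vale.Agent.P336
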