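import Vale.Agent.P336.Core
import Vale.Agent.P336.Defs

/-!
From correlation to circuit size. `card_cyl_le`: if `x0` matches `τ` then
`cyl univ τ ⊆ fib x0 (supp τ)ᶜ` (`mt_agree`, `card_fib`, `card_compl`).
`lb`: `N = 2 ^ card X`. With `C = ∅` (`free ∅ = univ`): `σ F = ±1`, so the accepted set has at least
`N / 4` points. It is covered by the sets `Acc j = {x | ∀ i ∈ mid j, ¬ mt x (τ i)}`, `j ∈ top`, so
some `j ∈ top` has `|Acc j| * 2^(t+2) ≥ N`. Let `C` be the image under `τ` of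
`{i ∈ mid j | |supp (τ i)| ≤ 2t+3}`. Then `Acc j ⊆ free C`, and `free C \ Acc j` is covered by the
cylinders of at most `2^t` terms with support of size at least `2t+4`, so it has at most
`N / 2^(t+4)` points. `σ ∑_{free C} F ≥ |Acc j| - |free C \ Acc j| ≥ N / 2^(t+3)`, a contradiction.
`pull`: put `τ i = {(z, b) | ∃ l ∈ bot i, (∀ x, e x l.1 = x z) ∧ b = !l.2}` (a filter of `univ`),
`alive i = ¬ (cst i = true ∨ ∃ l ∈ bot i, ∀ x, e x l.1 = l.2)`, `mid j = (C.mid j).filter alive`;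
gate `i` holds at `e x` iff `alive i → ¬ mt x (τ i)`.
-/

namespace Vale.Agent.P336

open Finset

variable {X : Type} [Fintype X] [DecidableEq X]

theorem card_cyl_le (τ : Term X) :
    (cyl univ τ).card * 2 ^ (supp τ).card ≤ 2 ^ Fintype.card X := by
  rcases (cyl univ τ).eq_empty_or_nonempty with h | ⟨x0, hx0⟩
  · rw [h]; simp
  · have hsub : cyl univ τ ⊆ fib x0 (supp τ)ᶜ := by
      intro x hx
      rw [mem_fib]
      intro i hi
      exact mt_agree (mem_cyl.1 hx).2 (mem_cyl.1 hx0).2 (by simpa using hi)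
    have h1 := card_le_card hsub
    rw [card_fib, card_compl] at h1
    calc (cyl univ τ).card * 2 ^ (supp τ).card
        ≤ 2 ^ (Fintype.card X - (supp τ).card) * 2 ^ (supp τ).card := Nat.mul_le_mul_right _ h1
      _ = 2 ^ Fintype.card X := by rw [← pow_add, Nat.sub_add_cancel (card_le_univ _)]

theorem gap_LB {Y : Type} [DecidableEq Y] {F : Y → ℝ} {σ : ℝ} (hσ : |σ| = 1) (hF : ∀ x, |F x| = 1)
    {S T : Finset Y} (hTS : T ⊆ S) (hT : ∀ x ∈ T, F x = σ) :
    (T.card : ℝ) - ((S \ T).card : ℝ) ≤ |∑ x ∈ S, F x| := by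
  have hσ2 : σ * σ = 1 := by rw [← abs_mul_abs_self, hσ, one_mul]
  have h1 : ∑ x ∈ T, σ * F x = (T.card : ℝ) := by
    rw [sum_congr rfl (fun x hx => by rw [hT x hx, hσ2] : ∀ x ∈ T, σ * F x = 1)]
    simp
  have h2 : -((S \ T).card : ℝ) ≤ ∑ x ∈ S \ T, σ * F x := by
    have h3 : ∑ x ∈ S \ T, (-1 : ℝ) ≤ ∑ x ∈ S \ T, σ * F x := by
      refine sum_le_sum fun x _ => ?_
      have h4 := neg_abs_le (σ * F x)
      rwa [abs_mul, hσ, hF x, one_mul] at h4
    simpa using h3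
  have h5 : σ * ∑ x ∈ S, F x = ∑ x ∈ S \ T, σ * F x + ∑ x ∈ T, σ * F x := by
    rw [mul_sum, sum_sdiff hTS]
  have h6 := le_abs_self (σ * ∑ x ∈ S, F x)
  rw [abs_mul, hσ, one_mul] at h6
  linarith

theorem lb {I J : Type} [Fintype I] [Fintype J] (τ : I → Term X) (mid : J → Finset I)
    (top : Finset J) {t : ℕ} (hI : Fintype.card I ≤ 2 ^ t) (hJ : Fintype.card J ≤ 2 ^ t)
    {F : (X → Bool) → ℝ} {σ Δ : ℝ} (hσ : |σ| = 1) (hF : ∀ x, |F x| = 1)
    (hacc : ∀ x, (∃ j ∈ top, ∀ i ∈ mid j, ¬ mt x (τ i)) ↔ F x = σ) (hΔ : Δ < 1 / 2 ^ (t + 3))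
    (hcor : ∀ C : Finset (Term X), (∀ τ ∈ C, (supp τ).card ≤ 2 * t + 3) →
      |∑ x ∈ free C, F x| ≤ Δ * 2 ^ Fintype.card X) : False := by
  classical
  obtain ⟨N, hN⟩ : ∃ N : ℝ, N = 2 ^ Fintype.card X := ⟨_, rfl⟩
  obtain ⟨P, hP⟩ : ∃ P : ℝ, P = 2 ^ t := ⟨_, rfl⟩
  have hN0 : 0 < N := by rw [hN]; positivity
  have hP1 : 1 ≤ P := by rw [hP]; exact one_le_pow₀ (by norm_num)
  have hP0 : 0 < P := by linarith
  have hΔ' : Δ < 1 / (8 * P) := by
    have e : (2 : ℝ) ^ (t + 3) = 8 * P := by rw [hP, pow_add]; ring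
    rwa [e] at hΔ
  have hΔN : Δ * N < N / (8 * P) := by
    have h := mul_lt_mul_of_pos_right hΔ' hN0
    rwa [div_mul_eq_mul_div, one_mul] at h
  have hΔ8 : N / (8 * P) ≤ N / 8 := div_le_div_of_nonneg_left hN0.le (by norm_num) (by linarith)
  rw [← hN] at hcor
  obtain ⟨A, hA⟩ : ∃ A : Finset (X → Bool), ∀ x, x ∈ A ↔ F x = σ :=
    ⟨univ.filter fun x => F x = σ, by simp⟩
  obtain ⟨Acc, hAcc⟩ : ∃ Acc : J → Finset (X → Bool),
      ∀ j x, x ∈ Acc j ↔ ∀ i ∈ mid j, ¬ mt x (τ i) :=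
    ⟨fun j => univ.filter fun x => ∀ i ∈ mid j, ¬ mt x (τ i), by simp⟩
  have hAcard : 7 * N / 16 ≤ (A.card : ℝ) := by
    have h0 := hcor ∅ (by simp)
    have hfree : free (∅ : Finset (Term X)) = univ := by
      ext x; simp [mem_free]
    rw [hfree] at h0
    have h1 := gap_LB (F := F) (σ := -σ) (by rw [abs_neg, hσ]) hF (S := univ) (T := Aᶜ)
      (subset_univ _) (by
        intro x hx
        have hne : F x ≠ σ := fun h => (mem_compl.1 hx) ((hA x).2 h)
        have h2 : |F x| = |σ| := by rw [hF x, hσ]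
        rcases abs_eq_abs.1 h2 with h | h
        · exact absurd h hne
        · exact h)
    have h2 : (univ : Finset (X → Bool)) \ Aᶜ = A := by
      ext x; simp
    rw [h2] at h1
    have h3 : ((Aᶜ).card : ℝ) + A.card = N := by
      have h4 : (Aᶜ).card + A.card = Fintype.card (X → Bool) := card_compl_add_card A
      rw [hN]
      have h5 : Fintype.card (X → Bool) = 2 ^ Fintype.card X := by simp
      rw [h5] at h4
      exact_mod_cast h4
    linarith
  obtain ⟨j, hj, hjc⟩ : ∃ j ∈ top, N / (4 * P) ≤ ((Acc j).card : ℝ) := by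
    by_contra hno
    push Not at hno
    have hsub : A ⊆ top.biUnion Acc := by
      intro x hx
      obtain ⟨j, hj, h⟩ := (hacc x).2 ((hA x).1 hx)
      exact mem_biUnion.2 ⟨j, hj, (hAcc j x).2 h⟩
    have h1 : A.card ≤ ∑ j ∈ top, (Acc j).card := le_trans (card_le_card hsub) card_biUnion_le
    have h2 : (A.card : ℝ) ≤ ∑ j ∈ top, ((Acc j).card : ℝ) := by exact_mod_cast h1
    have h3 : ∑ j ∈ top, ((Acc j).card : ℝ) ≤ top.card • (N / (4 * P)) :=
      sum_le_card_nsmul _ _ _ fun j hj => (hno j hj).le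
    have h4 : (top.card : ℝ) ≤ P := by
      rw [hP]
      exact_mod_cast le_trans (card_le_univ top) hJ
    rw [nsmul_eq_mul] at h3
    have h5 : (top.card : ℝ) * (N / (4 * P)) ≤ P * (N / (4 * P)) :=
      mul_le_mul_of_nonneg_right h4 (by positivity)
    have h6 : P * (N / (4 * P)) = N / 4 := by field_simp
    linarith
  obtain ⟨C, hC⟩ : ∃ C : Finset (Term X),
      ∀ s, s ∈ C ↔ ∃ i ∈ mid j, (supp (τ i)).card ≤ 2 * t + 3 ∧ τ i = s :=
    ⟨((mid j).filter fun i => (supp (τ i)).card ≤ 2 * t + 3).image τ, by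
      intro s
      simp only [mem_image, mem_filter, and_assoc]⟩
  have h0 := hcor C (by
    intro s hs
    obtain ⟨i, _, hi, rfl⟩ := (hC s).1 hs
    exact hi)
  have h1 := gap_LB hσ hF (S := free C) (T := Acc j) (by
      intro x hx
      rw [mem_free]
      intro s hs
      obtain ⟨i, hi, _, rfl⟩ := (hC s).1 hs
      exact (hAcc j x).1 hx i hi)
    (fun x hx => (hacc x).1 ⟨j, hj, (hAcc j x).1 hx⟩)
  have h2 : ((free C \ Acc j).card : ℝ) ≤ N / (16 * P) := by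
    obtain ⟨W, hW⟩ : ∃ W : Finset I, ∀ i, i ∈ W ↔ 2 * t + 4 ≤ (supp (τ i)).card :=
      ⟨univ.filter fun i => 2 * t + 4 ≤ (supp (τ i)).card, by simp⟩
    have hsub : free C \ Acc j ⊆ W.biUnion fun i => cyl univ (τ i) := by
      intro x hx
      obtain ⟨hx1, hx2⟩ := mem_sdiff.1 hx
      rw [hAcc] at hx2
      push Not at hx2
      obtain ⟨i, hi, hm⟩ := hx2
      refine mem_biUnion.2 ⟨i, (hW i).2 ?_, mem_cyl.2 ⟨mem_univ _, hm⟩⟩
      by_contra hlt
      exact mem_free.1 hx1 (τ i) ((hC _).2 ⟨i, hi, by omega, rfl⟩) hm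
    have h3 : (free C \ Acc j).card ≤ ∑ i ∈ W, (cyl univ (τ i)).card :=
      le_trans (card_le_card hsub) card_biUnion_le
    have h4 : ((free C \ Acc j).card : ℝ) ≤ ∑ i ∈ W, ((cyl univ (τ i)).card : ℝ) := by
      exact_mod_cast h3
    have h5 : ∑ i ∈ W, ((cyl univ (τ i)).card : ℝ) ≤ W.card • (N / (16 * P ^ 2)) := by
      refine sum_le_card_nsmul _ _ _ fun i hi => ?_
      have h6 : (cyl univ (τ i)).card * 2 ^ (2 * t + 4) ≤ 2 ^ Fintype.card X :=
        le_trans (Nat.mul_le_mul_left _ (Nat.pow_le_pow_right (by norm_num) ((hW i).1 hi)))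
          (card_cyl_le (τ i))
      have h7 : ((cyl univ (τ i)).card : ℝ) * 2 ^ (2 * t + 4) ≤ 2 ^ Fintype.card X := by
        exact_mod_cast h6
      have e : (2 : ℝ) ^ (2 * t + 4) = 16 * P ^ 2 := by rw [hP]; ring
      rw [e, ← hN] at h7
      rwa [le_div_iff₀ (by positivity)]
    have h8 : (W.card : ℝ) ≤ P := by
      rw [hP]
      exact_mod_cast le_trans (card_le_univ W) hI
    rw [nsmul_eq_mul] at h5
    have h9 : (W.card : ℝ) * (N / (16 * P ^ 2)) ≤ P * (N / (16 * P ^ 2)) :=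
      mul_le_mul_of_nonneg_right h8 (by positivity)
    have h10 : P * (N / (16 * P ^ 2)) = N / (16 * P) := by field_simp
    linarith
  obtain ⟨Q, hQ⟩ : ∃ Q : ℝ, Q = N / (16 * P) := ⟨_, rfl⟩
  have hQ0 : 0 < Q := by rw [hQ]; positivity
  have e1 : N / (4 * P) = 4 * Q := by rw [hQ]; field_simp; norm_num
  have e2 : N / (8 * P) = 2 * Q := by rw [hQ]; field_simp; norm_num
  rw [← hQ] at h2
  rw [e1] at hjc
  rw [e2] at hΔN
  linarith

theorem pull {n : ℕ} (C : Circ n) (e : (X → Bool) → Fin n → Bool)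
    (he : ∀ t, (∃ z, ∀ x, e x t = x z) ∨ ∃ b, ∀ x, e x t = b) :
    ∃ (τ : Fin C.nb → Term X) (mid : Fin C.nm → Finset (Fin C.nb)),
      ∀ x, C.Accepts (e x) ↔ ∃ j ∈ C.top, ∀ i ∈ mid j, ¬ mt x (τ i) := by
  classical
  obtain ⟨τ, hτ⟩ : ∃ τ : Fin C.nb → Term X, ∀ i zb, zb ∈ τ i ↔
      ∃ l ∈ C.bot i, (∀ x, e x l.1 = x zb.1) ∧ zb.2 = !l.2 :=
    ⟨fun i => univ.filter fun zb => ∃ l ∈ C.bot i, (∀ x, e x l.1 = x zb.1) ∧ zb.2 = !l.2, by
      intro i zb
      simp only [mem_filter, mem_univ, true_and]⟩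
  refine ⟨τ, fun j => (C.mid j).filter fun i =>
    ¬ (C.cst i = true ∨ ∃ l ∈ C.bot i, ∀ x, e x l.1 = l.2), fun x => ?_⟩
  have key : ∀ i, (C.cst i = true ∨ ∃ l ∈ C.bot i, e x l.1 = l.2) ↔
      (¬ (C.cst i = true ∨ ∃ l ∈ C.bot i, ∀ x, e x l.1 = l.2) → ¬ mt x (τ i)) := by
    intro i
    constructor
    · intro h hal hm
      rcases h with h | ⟨l, hl, h⟩
      · exact hal (Or.inl h)
      · rcases he l.1 with ⟨z, hz⟩ | ⟨b, hb⟩
        · have h1 : x z = !l.2 := hm (z, !l.2) ((hτ i _).2 ⟨l, hl, hz, rfl⟩)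
          rw [← hz x, h] at h1
          cases hb : l.2 <;> simp [hb] at h1
        · exact hal (Or.inr ⟨l, hl, fun y => by rw [hb y, ← hb x, h]⟩)
    · intro h
      by_cases hal : C.cst i = true ∨ ∃ l ∈ C.bot i, ∀ x, e x l.1 = l.2
      · rcases hal with h1 | ⟨l, hl, h1⟩
        · exact Or.inl h1
        · exact Or.inr ⟨l, hl, h1 x⟩
      · have hm := h hal
        unfold mt at hm
        push Not at hm
        obtain ⟨zb, hzb, hne⟩ := hm
        obtain ⟨l, hl, h1, h2⟩ := (hτ i zb).1 hzb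
        refine Or.inr ⟨l, hl, ?_⟩
        rw [h1 x]
        rw [h2] at hne
        cases hb : l.2 <;> cases hc : x zb.1 <;> simp [hb, hc] at hne ⊢
  unfold Circ.Accepts
  refine exists_congr fun j => and_congr_right fun _ => ?_
  constructor
  · intro h i hi
    obtain ⟨hi1, hi2⟩ := mem_filter.1 hi
    exact (key i).1 (h i hi1) hi2
  · intro h i hi
    exact (key i).2 fun hal => h i (mem_filter.2 ⟨hi, hal⟩)

end Vale.Agent.P336
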