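import Vale.Agent.P336.Lang

/-!
Parameters. Never evaluate `2 ^ 65536`: use `Nat.lt_size : m < size n ↔ 2 ^ m ≤ n`,
`Nat.lt_size_self : n < 2 ^ size n`. Write `t = size n > 65536`, `p = t / 65536 ≥ 1`,
`65536 p ≤ t < 65536 (p + 1) ≤ 131072 p`, `2^(t-1) ≤ n < 2^t`.
* `par_B`: `8 p * 2^26 ≤ t * 2^13 ≤ 2^(t-1) ≤ n`, so `2^26 ≤ n / (8 p)`, `Nat.le_sqrt`.
* `B * B ≤ n / (8 p)` (`Nat.sqrt_le`), `n < 8 p (B+1)^2 ≤ 32 p B^2` (`Nat.lt_succ_sqrt`),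
  `4096 c ≤ B ≤ 8192 c`, `64 m = 4096 c p ≤ p B`.
* `par_pow`: `1 + 3/B ≤ exp (3/B)`, `3 (24 m + 3) / B ≤ 81 m / B ≤ 81 p / 64 ≤ 2 p log 2`
  (`Real.add_one_le_exp`, `Real.log_two_gt_d9`).
* `par_Np`: `2 (256 m) + 1 ≤ 2^t` (as `256 m B = c l B ≤ n / 2`), so the base is at most
  `2^(t 2 p + 2) ≤ 2^(2^19 p^2)`, and `Θ (256 m + 1) 2^19 p^2 ≤ Θ Θ (4 m)` for `Θ = 2^(512 p)`
  because `256 m + 1 ≤ 512 m` and `2^26 p^2 ≤ 2^(512 p)` (`p < 2^p`).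
* `par_fit`: `c l B ≤ 4 p B B ≤ n / 2`; `(2^l)^4 = 2^(65536 p) ≤ 2^t ≤ 2 n`, `(4096 c)^2 ≤ n`, so
  `(2 c 2^l)^4 ≤ n^4`.
* `par_exp`: `log n ≤ t ≤ 131072 p` (`n < 2^t`, `log 2 ≤ 1`), `n ≤ 32 p B^2`, so
  `n log n ≤ 2^22 p^2 B^2 ≤ (2^11 * 8192 c p)^2`, and `2^24 c p ≤ 65536 * 12 * 64 c p`
  (`Real.sqrt_le_iff`, `Real.sqrt_le_left`).
-/

namespace Vale.Agent.P336

theorem size_Par {n : ℕ} (hn : 2 ^ 65536 ≤ n) : 65536 < Nat.size n := Nat.lt_size.mpr hn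

theorem low_Par {n : ℕ} (ht : 65536 < Nat.size n) : 2 ^ Nat.size n ≤ 2 * n := by
  have h1 : 2 ^ (Nat.size n - 1) ≤ n := Nat.lt_size.mp (by omega)
  obtain ⟨r, hr⟩ : ∃ r, Nat.size n = r + 1 := ⟨Nat.size n - 1, by omega⟩
  rw [hr] at h1 ⊢
  rw [Nat.add_sub_cancel] at h1
  rw [pow_succ]
  omega

theorem pt_Par {n : ℕ} (ht : 65536 < Nat.size n) :
    1 ≤ pp n ∧ 65536 * pp n ≤ Nat.size n ∧ Nat.size n < 131072 * pp n := by
  unfold pp
  omega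

theorem tn_Par {n : ℕ} (ht : 65536 < Nat.size n) : Nat.size n * 8192 ≤ n := by
  have h1 := low_Par ht
  obtain ⟨r, hr⟩ : ∃ r, Nat.size n = r + 15 := ⟨Nat.size n - 15, by omega⟩
  rw [hr] at h1 ht ⊢
  have h2 : r < 2 ^ r := Nat.lt_two_pow_self
  rw [pow_add] at h1
  generalize 2 ^ r = X at *
  have h3 : (2 : ℕ) ^ 15 = 32768 := by norm_num
  rw [h3] at h1
  linarith

theorem B_Par {n : ℕ} (ht : 65536 < Nat.size n) :
    8192 ≤ BB n ∧ 8 * pp n * (BB n * BB n) ≤ n ∧ n ≤ 32 * pp n * (BB n * BB n) := by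
  obtain ⟨hp, hp1, -⟩ := pt_Par ht
  have h1 := tn_Par ht
  have h8 : 0 < 8 * pp n := by omega
  have hB : 8192 ≤ BB n := by
    unfold BB
    rw [Nat.le_sqrt, Nat.le_div_iff_mul_le h8]
    omega
  refine ⟨hB, ?_, ?_⟩
  · have h2 : BB n * BB n ≤ n / (8 * pp n) := Nat.sqrt_le _
    rw [Nat.le_div_iff_mul_le h8] at h2
    rw [mul_comm]
    exact h2
  · have h2 : n / (8 * pp n) < (BB n + 1) * (BB n + 1) := Nat.lt_succ_sqrt _
    rw [Nat.div_lt_iff_lt_mul h8] at h2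
    have h3 : (BB n + 1) * (BB n + 1) ≤ (2 * BB n) * (2 * BB n) :=
      Nat.mul_le_mul (by omega) (by omega)
    have h4 : (BB n + 1) * (BB n + 1) * (8 * pp n) ≤ (2 * BB n) * (2 * BB n) * (8 * pp n) :=
      Nat.mul_le_mul_right _ h3
    have h5 : (2 * BB n) * (2 * BB n) * (8 * pp n) = 32 * pp n * (BB n * BB n) := by ring
    omega

theorem c_Par {n : ℕ} (ht : 65536 < Nat.size n) :
    2 ≤ cc n ∧ 4096 * cc n ≤ BB n ∧ BB n ≤ 8192 * cc n := by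
  have h := (B_Par ht).1
  unfold cc
  omega

theorem m_Par {n : ℕ} (ht : 65536 < Nat.size n) : 128 ≤ mm n ∧ 64 * mm n ≤ pp n * BB n := by
  obtain ⟨hc, hc1, -⟩ := c_Par ht
  obtain ⟨hp, -, -⟩ := pt_Par ht
  have h1 : 2 * 1 ≤ cc n * pp n := Nat.mul_le_mul hc hp
  have h2 : pp n * (4096 * cc n) ≤ pp n * BB n := Nat.mul_le_mul_left _ hc1
  have h3 : pp n * (4096 * cc n) = 64 * (64 * (cc n * pp n)) := by ring
  unfold mm
  omega

theorem u_Par {n : ℕ} (ht : 65536 < Nat.size n) : 2 * (256 * mm n * BB n) ≤ n := by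
  obtain ⟨-, h1⟩ := m_Par ht
  obtain ⟨-, h2, -⟩ := B_Par ht
  have h3 : 64 * mm n * BB n ≤ pp n * BB n * BB n := Nat.mul_le_mul_right _ h1
  have h4 : 2 * (256 * mm n * BB n) = 8 * (64 * mm n * BB n) := by ring
  have h5 : 8 * pp n * (BB n * BB n) = 8 * (pp n * BB n * BB n) := by ring
  omega

theorem par_p {n : ℕ} (hn : 2 ^ 65536 ≤ n) : 1 ≤ pp n := by
  exact (pt_Par (size_Par hn)).1

theorem par_B {n : ℕ} (hn : 2 ^ 65536 ≤ n) : 8192 ≤ BB n := by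
  exact (B_Par (size_Par hn)).1

theorem par_m {n : ℕ} (hn : 2 ^ 65536 ≤ n) : 2 ≤ mm n := by
  exact le_trans (by norm_num) (m_Par (size_Par hn)).1

theorem par_u (n : ℕ) : cc n * ll n = 256 * mm n := by
  unfold ll mm; ring

theorem par_pow {n : ℕ} (hn : 2 ^ 65536 ≤ n) :
    (1 + 3 / (BB n : ℝ)) ^ (2 * (12 * mm n) + 3) ≤ 2 ^ (2 * pp n) := by
  have ht := size_Par hn
  clear hn
  obtain ⟨hm, hm1⟩ := m_Par ht
  have hB := (B_Par ht).1
  have hB' : (8192 : ℝ) ≤ BB n := by exact_mod_cast hB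
  have hm' : (128 : ℝ) ≤ mm n := by exact_mod_cast hm
  have hm1' : (64 : ℝ) * mm n ≤ pp n * BB n := by exact_mod_cast hm1
  have hp0 : (0 : ℝ) ≤ pp n := Nat.cast_nonneg _
  have hBpos : (0 : ℝ) < BB n := by linarith
  have h1 : 1 + 3 / (BB n : ℝ) ≤ Real.exp (3 / BB n) := by
    have := Real.add_one_le_exp (3 / (BB n : ℝ))
    linarith
  have h2 : (1 + 3 / (BB n : ℝ)) ^ (2 * (12 * mm n) + 3) ≤
      Real.exp (3 / BB n) ^ (2 * (12 * mm n) + 3) :=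
    pow_le_pow_left₀ (by positivity) h1 _
  refine h2.trans ?_
  have h3 : (2 : ℝ) ^ (2 * pp n) = Real.exp (((2 * pp n : ℕ) : ℝ) * Real.log 2) := by
    rw [Real.exp_nat_mul, Real.exp_log (by norm_num)]
  rw [h3, ← Real.exp_nat_mul, Real.exp_le_exp]
  have hl := Real.log_two_gt_d9
  push_cast
  rw [← mul_div_assoc, div_le_iff₀ hBpos]
  have h4 : (pp n : ℝ) * BB n * (2 / 3) ≤ pp n * BB n * Real.log 2 :=
    mul_le_mul_of_nonneg_left (by linarith) (by positivity)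
  nlinarith

theorem par_Np {n : ℕ} (hn : 2 ^ 65536 ≤ n) :
    (2 * (2 * (256 * mm n) + 1) ^ (2 * pp n) + 1) ^ (2 ^ (256 * (2 * pp n)) * (256 * mm n + 1)) ≤
      2 ^ (2 ^ (1024 * pp n) * (4 * mm n)) := by
  have ht := size_Par hn
  clear hn
  obtain ⟨hm, -⟩ := m_Par ht
  obtain ⟨hp, -, hp2⟩ := pt_Par ht
  have hB := (B_Par ht).1
  have hu := u_Par ht
  have hlt : n < 2 ^ Nat.size n := Nat.lt_size_self n
  have h0 : 256 * mm n * 1 ≤ 256 * mm n * BB n := Nat.mul_le_mul_left _ (by omega)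
  have h1 : 2 * (256 * mm n) + 1 ≤ 2 ^ Nat.size n := by omega
  generalize Nat.size n = t at *
  generalize mm n = m at *
  generalize pp n = p at *
  have h2 : (2 * (256 * m) + 1) ^ (2 * p) ≤ 2 ^ (t * (2 * p)) := by
    rw [pow_mul 2 t]
    exact Nat.pow_le_pow_left h1 _
  have h3 : 2 * (2 * (256 * m) + 1) ^ (2 * p) + 1 ≤ 2 ^ (t * (2 * p) + 2) := by
    have : 0 < 2 ^ (t * (2 * p)) := by positivity
    rw [pow_add]
    omega
  have h4 : t * (2 * p) + 2 ≤ 524288 * (p * p) := by nlinarith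
  have h5 : 2 * (2 * (256 * m) + 1) ^ (2 * p) + 1 ≤ 2 ^ (524288 * (p * p)) :=
    h3.trans (Nat.pow_le_pow_right (by norm_num) h4)
  refine (Nat.pow_le_pow_left h5 _).trans ?_
  rw [← pow_mul]
  refine Nat.pow_le_pow_right (by norm_num) ?_
  have h6 : 67108864 * (p * p) ≤ 2 ^ (512 * p) := by
    have a1 : p ≤ 2 ^ p := Nat.lt_two_pow_self.le
    have a2 : p * p ≤ 2 ^ p * 2 ^ p := Nat.mul_le_mul a1 a1
    have a3 : 2 ^ 26 ≤ 2 ^ (510 * p) := Nat.pow_le_pow_right (by norm_num) (by omega)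
    calc 67108864 * (p * p) = 2 ^ 26 * (p * p) := by norm_num
      _ ≤ 2 ^ (510 * p) * (2 ^ p * 2 ^ p) := Nat.mul_le_mul a3 a2
      _ = 2 ^ (512 * p) := by rw [← pow_add, ← pow_add]; congr 1; ring
  have h7 : 2 ^ (1024 * p) = 2 ^ (512 * p) * 2 ^ (512 * p) := by
    rw [← pow_add]; congr 1; ring
  rw [h7, show 256 * (2 * p) = 512 * p by ring]
  generalize 2 ^ (512 * p) = T at *
  calc 524288 * (p * p) * (T * (256 * m + 1)) ≤ 524288 * (p * p) * (T * (512 * m)) :=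
        Nat.mul_le_mul_left _ (Nat.mul_le_mul_left _ (by omega))
    _ = 67108864 * (p * p) * (T * (4 * m)) := by ring
    _ ≤ T * (T * (4 * m)) := Nat.mul_le_mul_right _ h6
    _ = T * T * (4 * m) := by ring

theorem par_fit {n : ℕ} (hn : 2 ^ 65536 ≤ n) :
    cc n * ll n * BB n + cc n * 2 ^ ll n ≤ n := by
  have ht := size_Par hn
  clear hn
  obtain ⟨hp, hp1, -⟩ := pt_Par ht
  obtain ⟨hB, hB1, -⟩ := B_Par ht
  obtain ⟨-, hc, -⟩ := c_Par ht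
  have hu := u_Par ht
  have hlow := low_Par ht
  have htn := tn_Par ht
  rw [par_u]
  have h1 : (2 ^ ll n) ^ 4 ≤ 2 * n := by
    rw [← pow_mul]
    refine le_trans (Nat.pow_le_pow_right (by norm_num) ?_) hlow
    unfold ll
    omega
  have h2 : BB n * BB n ≤ n := by
    have : 1 * (BB n * BB n) ≤ 8 * pp n * (BB n * BB n) := Nat.mul_le_mul_right _ (by omega)
    omega
  have h3 : (4096 * cc n) * (4096 * cc n) ≤ n := (Nat.mul_le_mul hc hc).trans h2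
  have hn1 : 1 ≤ n := by omega
  have h4 : (2 * (cc n * 2 ^ ll n)) ^ 4 ≤ n ^ 4 := by
    generalize 2 ^ ll n = X at *
    generalize cc n = c at *
    have a1 : 6 * (c * c) ≤ n := by nlinarith
    have a2 : (6 * (c * c)) * (6 * (c * c)) ≤ n * n := Nat.mul_le_mul a1 a1
    calc (2 * (c * X)) ^ 4 = 16 * c ^ 4 * X ^ 4 := by ring
      _ ≤ 16 * c ^ 4 * (2 * n) := Nat.mul_le_mul_left _ h1
      _ = 32 * c ^ 4 * n := by ring
      _ ≤ 36 * c ^ 4 * n := Nat.mul_le_mul_right _ (Nat.mul_le_mul_right _ (by norm_num))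
      _ = (6 * (c * c)) * (6 * (c * c)) * n := by ring
      _ ≤ n * n * n := Nat.mul_le_mul_right _ a2
      _ = n ^ 3 := by ring
      _ ≤ n ^ 4 := Nat.pow_le_pow_right hn1 (by norm_num)
  have h5 : 2 * (cc n * 2 ^ ll n) ≤ n := (Nat.pow_le_pow_iff_left (by norm_num)).mp h4
  omega

theorem par_exp {n : ℕ} (hn : 2 ^ 65536 ≤ n) :
    1 / 65536 * √((n : ℝ) * Real.log n) ≤ (12 * mm n : ℕ) := by
  have ht := size_Par hn
  clear hn
  obtain ⟨hp, -, hp2⟩ := pt_Par ht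
  obtain ⟨hB, -, hB2⟩ := B_Par ht
  obtain ⟨-, -, hc⟩ := c_Par ht
  have htn := tn_Par ht
  have hlt : n < 2 ^ Nat.size n := Nat.lt_size_self n
  have hn0 : (0 : ℝ) < n := by exact_mod_cast (by omega : 0 < n)
  have hlog : Real.log n ≤ 131072 * pp n := by
    have a1 : (n : ℝ) ≤ 2 ^ Nat.size n := by exact_mod_cast hlt.le
    have a2 := Real.log_le_log hn0 a1
    rw [Real.log_pow] at a2
    have a3 := Real.log_two_lt_d9
    have a4 : (Nat.size n : ℝ) ≤ 131072 * pp n := by exact_mod_cast hp2.le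
    have a5 : (0 : ℝ) ≤ Nat.size n := Nat.cast_nonneg _
    nlinarith
  have hB2' : (n : ℝ) ≤ 32 * pp n * (BB n * BB n) := by exact_mod_cast hB2
  have hc' : (BB n : ℝ) ≤ 8192 * cc n := by exact_mod_cast hc
  have hlog0 : 0 ≤ Real.log n := Real.log_natCast_nonneg n
  have hp0 : (0 : ℝ) ≤ pp n := Nat.cast_nonneg _
  have hB0 : (0 : ℝ) ≤ BB n := Nat.cast_nonneg _
  have hc0 : (0 : ℝ) ≤ cc n := Nat.cast_nonneg _
  have h1 : (n : ℝ) * Real.log n ≤ (2048 * (pp n * BB n)) ^ 2 := by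
    calc (n : ℝ) * Real.log n ≤ (32 * pp n * (BB n * BB n)) * (131072 * pp n) :=
          mul_le_mul hB2' hlog hlog0 (by positivity)
      _ = (2048 * (pp n * BB n)) ^ 2 := by ring
  have h2 : √((n : ℝ) * Real.log n) ≤ 2048 * (pp n * BB n) :=
    Real.sqrt_le_iff.mpr ⟨by positivity, h1⟩
  have h3 : (pp n : ℝ) * BB n ≤ pp n * (8192 * cc n) := mul_le_mul_of_nonneg_left hc' hp0
  have h4 : (0 : ℝ) ≤ pp n * cc n := by positivity
  unfold mm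
  push_cast
  nlinarith

end Vale.Agent.P336
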