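import Vale.Agent.P336.Cor2
import Vale.Agent.P336.LB
import Vale.Agent.P336.Emb
import Vale.Agent.P336.Par

/-! The lower bound. -/

namespace Vale.Agent.P336

open Finset

theorem lower {n : ℕ} (hn : 2 ^ 65536 ≤ n) (b : Bool) (C : Circ n)
    (hC : ∀ x : Fin n → Bool, C.Accepts x ↔ lang (List.ofFn x) = b) :
    (2 : ℝ) ^ (1 / 65536 * √((n : ℝ) * Real.log n)) ≤ C.size := by
  by_contra hlt
  have hp := par_p hn
  have hB := par_B hn
  have hm := par_m hn
  have h1 : (C.size : ℝ) < (2 ^ (12 * mm n) : ℕ) := by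
    refine (not_le.1 hlt).trans_le ?_
    rw [Nat.cast_pow, Nat.cast_ofNat, ← Real.rpow_natCast]
    exact Real.rpow_le_rpow_of_exponent_le one_le_two (par_exp hn)
  have h2 : C.nb + C.nm + 1 < 2 ^ (12 * mm n) := by exact_mod_cast h1
  obtain ⟨s, hs⟩ := cor_total (c := cc n) (l := ll n) (B := BB n) (q := 1024 * pp n)
    (w := 2 * pp n) (m := mm n) (k := 2 * (12 * mm n) + 3) (by omega) (by omega) (by omega)
    (by unfold ll; ring) (par_u n) (par_pow hn) (par_Np hn)
  obtain ⟨e, he, hes⟩ := emb (par_fit hn) s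
  obtain ⟨τ, mid, hτ⟩ := pull C e he
  refine lb τ mid C.top (t := 12 * mm n) (by rw [Fintype.card_fin]; omega)
    (by rw [Fintype.card_fin]; omega) (abs_sgn b) (abs_Fs chr s) (fun x => ?_) ?_ hs
  · rw [← hτ, hC, ← hes, sgn_inj, lang, List.length_ofFn]
  · have h3 : (2 : ℝ) ^ (16 * mm n) = 2 ^ (12 * mm n + 3) * 2 ^ (4 * mm n - 3) := by
      rw [← pow_add]; congr 1; omega
    have h4 : (2 : ℝ) ^ 2 ≤ 2 ^ (4 * mm n - 3) := pow_le_pow_right₀ one_le_two (by omega)
    rw [h3, div_lt_div_iff₀ (by positivity) (by positivity)]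
    have h5 : (0 : ℝ) < 2 ^ (12 * mm n + 3) := by positivity
    nlinarith

end Vale.Agent.P336
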