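import Vale.Agent.P336.Lang
import Vale.Agent.P337.Bridge
import Vale.Agent.P337.PTx

/-!
The language is in P. Library: `Vale.Agent.Lib.H23.PT` (`fun_prop`, `PT.foldl'`, `PT.getD`,
`PT.bit`, `PT.div`, ...), `Vale.Agent.P337.Un` (unary numbers: `Un.range`, `Un.min`, `Un.size`,
`Un.length`, `Un.mul`, `Un.const`, `Un.congr`, `Un.pt`), `polyFn_of_pt`. The square root is a count
over `List.range x.length` (see `sqrt_eq_countP` in P325/PTF.lean; do not import P325).
-/

namespace Vale.Agent.P336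

open Vale.Agent.Lib.H23 Vale.Agent.P337

section

open Enc

variable {α : Type} [Enc α]

theorem xor_LangPT {f : α → ℕ → Bool} (hf : PT fun p : α × ℕ => f p.1 p.2) {k : α → ℕ}
    (hk : Un k) : PT fun x => (List.range (k x)).foldl (fun acc b => xor acc (f x b)) false := by
  have h0 : PT fun p : α × Bool × ℕ => f p.1 p.2.2 :=
    PT.comp (g := fun p : α × Bool × ℕ => (p.1, p.2.2)) hf (by fun_prop)
  refine PT.foldl' (f := fun x acc b => xor acc (f x b)) (PT.xor (by fun_prop) h0) hk.range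
    (PT.const false) ⟨3, fun x s a => ?_⟩
  have := sz_bool (xor s (f x a))
  simp only [Polynomial.eval_ofNat]
  omega

theorem code_LangPT {v : α → ℕ → Bool} (hv : PT fun p : α × ℕ => v p.1 p.2) {i k : α → ℕ}
    (hi : PT i) (hk : Un k) : PT fun x => code (i x) (v x) (k x) := by
  have h0 : PT fun p : α × ℕ × ℕ => v p.1 p.2.2 :=
    PT.comp (g := fun p : α × ℕ × ℕ => (p.1, p.2.2)) hv (by fun_prop)
  exact PT.foldl' (f := fun x acc j => Nat.bit (v x j) acc) (PT.bit h0 (by fun_prop)) hk.range hi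
    ⟨4, fun x s a => by simpa using sz_bit_le (v x a) s⟩

theorem le_LangPT {k m : α → ℕ} (hk : PT k) (hm : Un m) (h : ∀ x, k x ≤ m x) : Un k :=
  (Un.min hk hm).congr fun x => (min_eq_left (h x)).symm

theorem div_LangPT {k m : α → ℕ} (hk : Un k) (hm : PT m) : Un fun x => k x / m x :=
  le_LangPT (PT.div hk.pt hm) hk fun _ => Nat.div_le_self _ _

theorem cnt_LangPT (k n : ℕ) : (List.range n).foldl
    (fun (s : List Unit) i => bif ltb k ((i + 1) * (i + 1)) then s else () :: s) [] =
      List.replicate (min n (Nat.sqrt k)) () := by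
  induction n with
  | zero => simp
  | succ n ih =>
    rw [List.range_succ, List.foldl_append, ih, List.foldl_cons, List.foldl_nil]
    by_cases h : k < (n + 1) * (n + 1)
    · have h1 : Nat.sqrt k < n + 1 := Nat.sqrt_lt.2 h
      rw [min_eq_right (by omega), min_eq_right h1.le]
      simp [ltb, h]
    · have h1 : n + 1 ≤ Nat.sqrt k := Nat.le_sqrt.2 (not_lt.1 h)
      rw [min_eq_left (by omega), min_eq_left h1]
      simp [ltb, h, List.replicate_succ]

theorem sqrt_LangPT {k : α → ℕ} (hk : Un k) : Un fun x => Nat.sqrt (k x) := by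
  have h0 : PT fun p : α × List Unit × ℕ => k p.1 := PT.comp hk.pt PT.fst'
  refine (PT.foldl' (f := fun x (s : List Unit) i =>
    bif ltb (k x) ((i + 1) * (i + 1)) then s else () :: s)
    (PT.cond (PT.ltb h0 (by fun_prop)) (by fun_prop) (by fun_prop)) hk.range (PT.const [])
    ⟨2, fun x s a => ?_⟩).congr fun x => ?_
  · have e : sz () = 1 := rfl
    cases ltb (k x) ((a + 1) * (a + 1)) <;> simp [e]
    omega
  · rw [cnt_LangPT, min_eq_right (Nat.sqrt_le_self _)]

theorem langG_LangPT {g : α → ℕ → Bool} (hg : PT fun p : α × ℕ => g p.1 p.2) {c l B : α → ℕ}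
    (hc : Un c) (hl : Un l) (hB : Un B) : PT fun x => langG (g x) (c x) (l x) (B x) := by
  have l3 : PT fun p : ((α × ℕ) × ℕ) × ℕ => l p.1.1.1 := PT.comp hl.pt (by fun_prop)
  have B3 : PT fun p : ((α × ℕ) × ℕ) × ℕ => B p.1.1.1 := PT.comp hB.pt (by fun_prop)
  have h1 : PT fun p : (α × ℕ) × ℕ => parG (g p.1.1) (l p.1.1) (B p.1.1) p.1.2 p.2 :=
    xor_LangPT (f := fun (p : (α × ℕ) × ℕ) b => g p.1.1 ((p.1.2 * l p.1.1 + p.2) * B p.1.1 + b))
      (PT.comp (g := fun p : ((α × ℕ) × ℕ) × ℕ =>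
        (p.1.1.1, (p.1.1.2 * l p.1.1.1 + p.1.2) * B p.1.1.1 + p.2)) hg
        (PT.pair (by fun_prop) (PT.add (PT.mul (PT.add (PT.mul (by fun_prop) l3) (by fun_prop)) B3)
          (by fun_prop))))
      (hB.comp (by fun_prop))
  have h2 : PT fun p : α × ℕ => code p.2 (parG (g p.1) (l p.1) (B p.1) p.2) (l p.1) :=
    code_LangPT (v := fun p : α × ℕ => parG (g p.1) (l p.1) (B p.1) p.2) h1 PT.snd'
      (hl.comp PT.fst')
  have h3 : PT fun p : α × ℕ => c p.1 * l p.1 * B p.1 :=
    PT.comp (f := fun x => c x * l x * B x) (PT.mul (PT.mul hc.pt hl.pt) hB.pt) PT.fst'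
  exact xor_LangPT
    (f := fun x i => g x (c x * l x * B x + code i (parG (g x) (l x) (B x) i) (l x)))
    (PT.comp (g := fun p : α × ℕ => (p.1, c p.1 * l p.1 * B p.1 +
      code p.2 (parG (g p.1) (l p.1) (B p.1) p.2) (l p.1))) hg (PT.pair PT.fst' (PT.add h3 h2))) hc

end

theorem pt_lang : PT lang := by
  have hn : Un fun x : List Bool => x.length := Un.length PT.id
  have hp : Un fun x : List Bool => pp x.length := div_LangPT (Un.size hn.pt) (PT.const _)
  have hB : Un fun x : List Bool => BB x.length :=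
    sqrt_LangPT (div_LangPT hn (PT.mul (PT.const 8) hp.pt))
  exact langG_LangPT (g := fun (x : List Bool) t => x.getD t false)
    (PT.getD PT.fst' PT.snd' (PT.const false)) (div_LangPT hB (PT.const _))
    ((Un.const 16384).mul hp) hB

theorem lang_tm : ∃ M : Turing.TM2ComputableInPolyTime (id : List Bool → List Bool)
    (fun b : Bool => [b]) lang, ∀ k, Finite (M.tm.Γ k) := by
  obtain ⟨M, hM⟩ := polyFn_of_pt (f := fun x => [lang x]) (PT.cons pt_lang (PT.const _))
  exact ⟨⟨M.toTM2ComputableAux, M.time, M.outputsFun⟩, hM⟩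

end Vale.Agent.P336
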