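import Vale.Agent.P336.Core

/-!
Moments, part 1 and 2.
`mom_vanish`: the involution `s ↦ Function.update s (i, ch i (v j0)) (!(s (i, ch i (v j0))))`
changes the sign of exactly one factor `sgn (s (i, ch i (v j0)))` of the double product
(`sgn_not`), so the sum equals its negative (`Finset.sum_involution`, or `Equiv.sum_comp` with
`Function.Involutive.toPerm`).
`card_good`: for a good `v` and a group `i` the image of `j ↦ ch i (v j)` has at most `h` elements
(every fibre has at least two elements, `Finset.card_eq_sum_card_fiberwise` or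
`mul_card_image_le_card`-type lemma), so there is `π i : Fin (2 h) → Fin h` with
`π i j = π i j' → ch i (v j) = ch i (v j')` (embed the image into `Fin h`). Put
`r k z = if there is j with π (grp z) j = k then v j z (chosen j) else y z`. Then `r k ∈ fib y a`
and `v j z = r (π (grp z) j) z` by `hsep`. So the good set lies in the image of
`(Fintype.piFinset fun _ : Fin h => fib y a) ×ˢ (univ : Finset (G → Fin (2 h) → Fin h))` under
`(r, π) ↦ fun j z => r (π (grp z) j) z`; count with `card_image_le`, `card_fib`.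
-/

namespace Vale.Agent.P336

open Finset

variable {X G V : Type} [Fintype X] [DecidableEq X] [Fintype G] [DecidableEq G] [Fintype V]
  [DecidableEq V]

theorem mom_vanish {J : Type} [Fintype J] (ch : G → (X → Bool) → V) (v : J → X → Bool) (i : G)
    (j0 : J) (h : ∀ j, ch i (v j) = ch i (v j0) → j = j0) :
    ∑ s : G × V → Bool, ∏ j, Fs ch s (v j) = 0 := by
  classical
  have hprod : ∀ s : G × V → Bool, ∏ j, Fs ch s (v j)
      = sgn (s (i, ch i (v j0))) *
        ∏ p ∈ (univ : Finset (J × G)).erase (j0, i), sgn (s (p.2, ch p.2 (v p.1))) := by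
    intro s
    have h1 : ∏ j, Fs ch s (v j) = ∏ p : J × G, sgn (s (p.2, ch p.2 (v p.1))) := by
      rw [Fintype.prod_prod_type]
      rfl
    rw [h1]
    exact (Finset.mul_prod_erase univ (fun p : J × G => sgn (s (p.2, ch p.2 (v p.1))))
      (mem_univ (j0, i))).symm
  let σ : (G × V → Bool) → (G × V → Bool) := fun s =>
    Function.update s (i, ch i (v j0)) (!(s (i, ch i (v j0))))
  have hσ : Function.Involutive σ := by
    intro s
    funext k
    by_cases hk : k = (i, ch i (v j0))
    · subst hk
      simp [σ]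
    · simp [σ, Function.update_of_ne hk]
  have hneg : ∀ s, ∏ j, Fs ch (σ s) (v j) = - ∏ j, Fs ch s (v j) := by
    intro s
    rw [hprod, hprod]
    have h2 : σ s (i, ch i (v j0)) = !(s (i, ch i (v j0))) := by simp [σ]
    have h3 : ∏ p ∈ (univ : Finset (J × G)).erase (j0, i), sgn (σ s (p.2, ch p.2 (v p.1)))
        = ∏ p ∈ (univ : Finset (J × G)).erase (j0, i), sgn (s (p.2, ch p.2 (v p.1))) := by
      refine Finset.prod_congr rfl fun p hp => ?_
      have hne : (p.2, ch p.2 (v p.1)) ≠ (i, ch i (v j0)) := by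
        intro he
        have e1 : p.2 = i := congrArg Prod.fst he
        have e2 : ch p.2 (v p.1) = ch i (v j0) := congrArg Prod.snd he
        rw [e1] at e2
        exact (mem_erase.1 hp).1 (Prod.ext (h _ e2) e1)
      simp only [σ, Function.update_of_ne hne]
    rw [h2, h3, sgn_not]
    ring
  have hs : ∑ s : G × V → Bool, ∏ j, Fs ch (σ s) (v j)
      = ∑ s : G × V → Bool, ∏ j, Fs ch s (v j) :=
    Equiv.sum_comp hσ.toPerm (fun s => ∏ j, Fs ch s (v j))
  simp only [hneg, Finset.sum_neg_distrib] at hs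
  linarith

theorem exists_code_Mom1 {V : Type} [DecidableEq V] (h : ℕ) (f : Fin (2 * h) → V)
    (hf : ∀ j, ∃ j', j' ≠ j ∧ f j' = f j) :
    ∃ π : Fin (2 * h) → Fin h, ∀ j j', π j = π j' → f j = f j' := by
  have hc : 2 * (univ.image f).card ≤ (univ : Finset (Fin (2 * h))).card := by
    refine Finset.mul_card_image_le_card univ 2 fun b hb => ?_
    obtain ⟨j, -, rfl⟩ := mem_image.1 hb
    obtain ⟨j', hj', he⟩ := hf j
    exact Finset.one_lt_card.2 ⟨j', by simp [he], j, by simp, hj'⟩
  rw [card_univ, Fintype.card_fin] at hc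
  have hle : Fintype.card (univ.image f) ≤ Fintype.card (Fin h) := by
    rw [Fintype.card_coe, Fintype.card_fin]
    omega
  obtain ⟨e⟩ := Function.Embedding.nonempty_of_card_le hle
  refine ⟨fun j => e ⟨f j, mem_image_of_mem f (mem_univ j)⟩, fun j j' hj => ?_⟩
  exact congrArg Subtype.val (e.injective hj)

theorem card_good (grp : X → G) (ch : G → (X → Bool) → V) (y : X → Bool) (a : Finset X)
    (hsep : ∀ x ∈ fib y a, ∀ x' ∈ fib y a, ∀ i, ch i x = ch i x' → ∀ z, grp z = i → x z = x' z)
    (h : ℕ) (T : Finset (Fin (2 * h) → X → Bool))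
    (hT : ∀ v ∈ T, (∀ j, v j ∈ fib y a) ∧ ∀ i j, ∃ j', j' ≠ j ∧ ch i (v j') = ch i (v j)) :
    T.card ≤ (2 ^ a.card) ^ h * (h ^ (2 * h)) ^ Fintype.card G := by
  classical
  let Φ : (Fin h → X → Bool) × (G → Fin (2 * h) → Fin h) → (Fin (2 * h) → X → Bool) :=
    fun p j z => p.1 (p.2 (grp z) j) z
  have hsub : T ⊆ ((Fintype.piFinset fun _ : Fin h => fib y a) ×ˢ
      (univ : Finset (G → Fin (2 * h) → Fin h))).image Φ := by
    intro v hv
    obtain ⟨hv1, hv2⟩ := hT v hv
    have hπ : ∀ i, ∃ π : Fin (2 * h) → Fin h, ∀ j j', π j = π j' → ch i (v j) = ch i (v j') :=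
      fun i => exists_code_Mom1 h (fun j => ch i (v j)) (hv2 i)
    choose π hπ using hπ
    let r : Fin h → X → Bool := fun k z =>
      if hk : ∃ j, π (grp z) j = k then v hk.choose z else y z
    refine mem_image.2 ⟨(r, π), mem_product.2 ⟨?_, mem_univ _⟩, ?_⟩
    · refine Fintype.mem_piFinset.2 fun k => mem_fib.2 fun z hz => ?_
      by_cases hk : ∃ j, π (grp z) j = k
      · simp only [r, dif_pos hk]
        exact mem_fib.1 (hv1 _) z hz
      · simp only [r, dif_neg hk]
    · funext j z
      have hk : ∃ j', π (grp z) j' = π (grp z) j := ⟨j, rfl⟩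
      simp only [Φ, r, dif_pos hk]
      exact hsep _ (hv1 _) _ (hv1 _) (grp z) (hπ _ _ _ hk.choose_spec) z rfl
  refine (card_le_card hsub).trans (card_image_le.trans (le_of_eq ?_))
  rw [card_product, Fintype.card_piFinset, card_univ, Fintype.card_fun, Fintype.card_fun]
  simp [card_fib]

end Vale.Agent.P336
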